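import Vale.Agent.P297Z.Top.Fin
import Vale.Agent.P297Z.Surf.NumI
import Vale.Agent.P297Z.Num.Harm
import Vale.Agent.P297Z.Num.Cfg
import Vale.Agent.P297Z.Eval.Mf

/-!
# P297: the numerical statements
-/

noncomputable section

namespace Vale.Agent.P297Z

namespace Num

variable {Λ Cv : Type} [AddCommGroup Λ] {S : Surf Λ Cv} {r : ℕ} (c : S.Cfg r)

/-- the first Chern class of the quotient -/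
def Surf.Cfg.bet : Λ := 2 • c.Kp + 4 • c.F + ∑ i : Fin 5, c.E (.inl i)

/-- the first line bundle -/
def Surf.Cfg.lam : Λ := -∑ i : Fin 5, c.E (.inl i)

/-- the isotropic linear forms -/
def Surf.Cfg.al (l : HL) (D : Λ) : ℂ := ∑ i, ha l i * S.B (c.E (.inl i)) D

/-- the last class -/
def Surf.Cfg.up : Λ := c.E (.inr 0) - c.E (.inr 1)

end Num

/-- The numerical theorem. -/
def NUMMAIN : Prop := ∀ (Λ Cv : Type) [AddCommGroup Λ] (S : Num.Surf Λ Cv) (r : ℕ) (c : S.Cfg r)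
  (I : Type) [Fintype I] (D₁ D₂ : I → Λ) (n₁ n₂ : I → ℕ) (Lin : AddSubgroup Λ),
  (∀ x ∈ Lin, ∀ y, S.B x y = 0) →
  (∀ i, S.Sec (D₁ i) ∧ S.Sec (D₂ i) ∧ (∀ x, S.B (D₁ i + D₂ i) x = S.B c.bet x) ∧
    (n₁ i + n₂ i : ℤ) = 7 + S.B (c.lam - D₁ i) (D₂ i)) →
  (∀ i j, D₁ i - D₁ j ∈ Lin → D₂ i - D₂ j ∈ Lin → n₁ i = n₁ j → i = j) →
  (∀ (D D' : Λ) (a b : ℕ), S.Sec D → S.Sec D' → (∀ x, S.B (D + D') x = S.B c.bet x) →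
    (a + b : ℤ) = 7 + S.B (c.lam - D) D' → ∃ i, D₁ i - D ∈ Lin ∧ D₂ i - D' ∈ Lin ∧ n₁ i = a) →
  ∀ (N M : I → ℂ) (kap : ℂ), kap ≠ 0 →
  (∀ l, ∑ i, c.al l (D₁ i) ^ 12 * (N i * (-2) + M i * (S.B c.up (D₁ i) : ℂ) ^ 2) = 0) →
  (∀ i, Eval.chiN S.B S.K (D₁ i) ≤ 0 ∨ Eval.chiN S.B S.K (D₂ i) ≤ 0 → N i = 0 ∧ M i = 0) →
  (∀ i, n₁ i + n₂ i ≤ 1 → 1 ≤ Eval.chiN S.B S.K (D₁ i) → 1 ≤ Eval.chiN S.B S.K (D₂ i) →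
    Eval.chiN S.B S.K (D₁ i) + Eval.chiN S.B S.K (D₂ i) ≤ 3 →
    M i = kap * Eval.Mf S.B S.K c.lam (D₁ i) (D₂ i) (n₁ i) (n₂ i)) →
  ∑ l, Num.hc l * ∑ i, c.al l (D₁ i) ^ 12 * N i ≠ 0

namespace Sf

/-- the loci with at most one point -/
def EV : Prop := ForAll fun S => ∀ (h : S.All) (hG : S.Good) (lam β : Div S.W) (c : ℤ),
  2 * c + inter lam β - inter S.kap β = 16 → ∃ kap : ℂ, kap ≠ 0 ∧
  ∀ (D₁ D₂ : Div S.W) (n₁ n₂ : ℕ) (T₁ : S.Tw h lam D₁ n₁) (T₂ : S.Tw h 0 D₂ n₂),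
    IsLocus lam β c D₁ D₂ n₁ n₂ → n₁ + n₂ ≤ 1 → 1 ≤ chi D₁ → 1 ≤ chi D₂ → chi D₁ + chi D₂ ≤ 3 →
    ∃ N, S.Shape h T₁ T₂ 12 N (kap * Eval.Mf (numSurf S h hG).B S.kap lam D₁ D₂ n₁ n₂)

end Sf

end Vale.Agent.P297Z
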