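import Vale.Agent.P297Z.Top.Loc

/-!
# P297: the fixed loci of the Quot space as products of towers
-/

noncomputable section

namespace Vale.Agent.P297Z

/-- the class `a + t b` -/
def tSum {X S : Spc} (a b : K0 (X.prod S)) : K0 ((X.prod ptT).prod S) :=
  pullK ((Mor.fst X ptT).map (Mor.id S)) a +
    pullK (Mor.fst _ S) (tK X 1) * pullK ((Mor.fst X ptT).map (Mor.id S)) b

section

variable {S : Spc} {L₁ M₁ L₂ M₂ : K0 S} {v₁ v₂ n₁ n₂ o₁ o₂ : ℕ}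
  (T₁ : Tower S L₁ M₁ v₁ n₁ o₁) (T₂ : Tower S L₂ M₂ v₂ n₂ o₂)

/-- minus the fixed part of the virtual cotangent space -/
def bZ : K0 (Fx T₁ T₂) :=
  -dualK _ (pK _ S (dualK _ (E1 T₁ T₂) * (pullK (Mor.snd _ _) L₁ - E1 T₁ T₂))) -
    dualK _ (pK _ S (dualK _ (E2 T₁ T₂) * (pullK (Mor.snd _ _) L₂ - E2 T₁ T₂)))

/-- A component of the fixed locus that is the product of the tops of two towers; `E` is the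
universal class. -/
structure FixData {ι : Type} [Fintype ι] [Nonempty ι] {d : ι → ℤ} (O : Obs ι d)
    (E : K0 (O.Q.prod S)) where
  w : ℤ
  j : Mor ((Fx T₁ T₂).prod ptT) O.Q
  jt : j.ρ (Pi.single (some ()) 1) = Pi.single (.inr ()) 1
  fix : ∀ a, d a ≠ w → (O.inc.comp j).φ (Amb.x d a) = 0
  inj : ∀ z z' : ((Fx T₁ T₂).prod ptT).Pt, O.Q.Orb (j.onPt z) (j.onPt z') →
    ((Fx T₁ T₂).prod ptT).Orb z z'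
  unr : j.Unr
  tan : ∀ (z : ((Fx T₁ T₂).prod ptT).Pt) (V : Submodule ℂ ((Amb ι d).R →ₗ[ℂ] ℂ)),
    (∀ D ∈ V, D ∈ Tan ((O.inc.comp j).onPt z).1 ∧ (∀ a ∈ O.I, D a = 0) ∧
      ∀ a, d a ≠ w → D (Amb.x d a) = 0) →
    Module.finrank ℂ V ≤ v₁ + 2 * n₁ + (v₂ + 2 * n₂) + 1
  hb : pullK j O.C.cls - ∑ a, pullK (O.inc.comp j) (line _ fun o => -o.elim 1 fun _ => d a) + 1 =
    pullK (Mor.fst _ _) (bZ T₁ T₂) + tK _ 1 * pullK (Mor.fst _ _) (bP T₁ T₂) +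
      tK _ (-1) * pullK (Mor.fst _ _) (bM T₁ T₂)
  Ob : Bun (Fx T₁ T₂)
  rkOb : (Ob.rk : ℤ) = rk _ (bZ T₁ T₂) + (v₁ + 2 * n₁ + (v₂ + 2 * n₂) : ℕ)
  u : ((Mor.fst _ ptT).pull Ob.M).M →ₗ[((Fx T₁ T₂).prod ptT).R] (j.pull O.C.M).M
  uhom : GMod.IsHom _ _ u
  uinj : ∀ z : ((Fx T₁ T₂).prod ptT).Pt, Function.Injective (fibMap z.1 u)
  uzero : ∀ (a : ι) (ψ : (O.inc.pull ((GMod.one (Amb ι d)).sub O.I O.stab)).M →ₗ[O.Q.R] O.Q.R),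
    (∀ f : O.I, ψ ((1 : O.inc.Src) ⊗ₜ f) = O.inc.φ (Amb.pd d a f)) →
    ∀ χ : (j.pull O.C.M).M →ₗ[((Fx T₁ T₂).prod ptT).R] ((Fx T₁ T₂).prod ptT).R,
    (∀ c : O.C.M.M, χ ((1 : j.Src) ⊗ₜ c) = j.φ (ψ (O.θ c))) → ∀ o, χ (u o) = 0
  obcls : Ob.cls = pullK (Mor.fst _ _) (T₁.obv n₁) + pullK (Mor.snd _ _) (T₂.obv n₂)
  Ecl : pullK (j.map (Mor.id S)) E = tSum (E1 T₁ T₂) (E2 T₁ T₂)

end

namespace Sf

/-- The Quot space of `O(lam) + t O`, its obstruction theory and its fixed loci. -/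
def FIXD : Prop := ForAll fun S => ∀ (h : S.All), S.Good → S.Cech1 0 →
  ∀ (lam β : Div S.W) (c : ℤ),
  ∃ (κ : Type) (_ : Fintype κ) (D₁ D₂ : κ → Div S.W) (n₁ n₂ : κ → ℕ)
    (T₁ : ∀ i, S.Tw h lam (D₁ i) (n₁ i)) (T₂ : ∀ i, S.Tw h 0 (D₂ i) (n₂ i)),
    (∀ i, IsLocus lam β c (D₁ i) (D₂ i) (n₁ i) (n₂ i)) ∧
    (∀ A₁ A₂ m₁ m₂, IsLocus lam β c A₁ A₂ m₁ m₂ →
      ∃! i, Lin A₁ (D₁ i) ∧ Lin A₂ (D₂ i) ∧ m₁ = n₁ i ∧ m₂ = n₂ i) ∧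
    (Nonempty κ → ∃ (ι : Type) (_ : Fintype ι) (_ : Nonempty ι) (d : ι → ℤ) (O : Obs ι d)
      (E : K0 (O.Q.prod (S.spc h))) (F : ∀ i, FixData (T₁ i) (T₂ i) O E),
      (∀ z : O.Q.Pt, (∃ w, ∀ a, d a ≠ w → z.1 (O.inc.φ (Amb.x d a)) = 0) →
        ∃ i x, O.Q.Orb ((F i).j.onPt x) z) ∧
      ∀ i i' x x', O.Q.Orb ((F i).j.onPt x) ((F i').j.onPt x') → i = i')

end Sf

end Vale.Agent.P297Z
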