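import Vale.Agent.P297Z.Top.Kap
import Vale.Agent.P297Z.Top.Fix

/-!
# P297: the virtual cotangent space on a fixed locus, ranks
-/

noncomputable section

namespace Vale.Agent.P297Z.Gl

variable {V W Y S : Spc} {e e' : ℕ}

theorem cn (hV : V.IsVar e) : V.Cn := ⟨hV.conn, hV.ne⟩

theorem cnT (hV : V.IsVar e) : (V.prod ptT).Cn := ⟨hV.connT, hV.neT⟩

theorem pK_T (hV : V.IsVar e) (hS : S.IsProj) (k : ℤ) (a : K0 (V.prod S)) :
    pK (V.prod ptT) S (pullK (Mor.fst _ S) (tK V k) * pullK ((Mor.fst V ptT).map (Mor.id S)) a) =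
      tK V k * pullK (Mor.fst V ptT) (pK V S a) := by
  rw [pK_mul (cnT hV) hS, ← pK_pull (cnT hV) (cn hV) hS]

theorem hb_gen (hV : V.IsVar e) (hS : S.IsProj) (e₁ e₂ l₁ l₂ : K0 (V.prod S)) :
    -dualK _ (pK (V.prod ptT) S (dualK _ (tSum e₁ e₂) * (tSum l₁ l₂ - tSum e₁ e₂))) =
      pullK (Mor.fst _ _) (-dualK _ (pK V S (dualK _ e₁ * (l₁ - e₁))) -
        dualK _ (pK V S (dualK _ e₂ * (l₂ - e₂)))) +
      tK V 1 * pullK (Mor.fst _ _) (-dualK _ (pK V S (dualK _ e₂ * (l₁ - e₁)))) +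
      tK V (-1) * pullK (Mor.fst _ _) (-dualK _ (pK V S (dualK _ e₁ * (l₂ - e₂)))) := by
  have h1 : pullK (Mor.fst _ S) (tK V (-1)) * pullK (Mor.fst _ S) (tK V 1) = 1 := by
    rw [← RingHom.map_mul, ← tK_add, neg_add_cancel, tK_zero, map_one]
  have h2 : dualK _ (tSum e₁ e₂) * (tSum l₁ l₂ - tSum e₁ e₂) =
      pullK (Mor.fst _ S) (tK V 0) * pullK ((Mor.fst V ptT).map (Mor.id S))
        (dualK _ e₁ * (l₁ - e₁) + dualK _ e₂ * (l₂ - e₂)) +
      pullK (Mor.fst _ S) (tK V (-1)) * pullK ((Mor.fst V ptT).map (Mor.id S))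
        (dualK _ e₂ * (l₁ - e₁)) +
      pullK (Mor.fst _ S) (tK V 1) * pullK ((Mor.fst V ptT).map (Mor.id S))
        (dualK _ e₁ * (l₂ - e₂)) := by
    simp only [tSum, map_add, RingHom.map_mul, map_sub, ← pullK_dualK, dualK_tK, tK_zero, map_one]
    linear_combination (pullK ((Mor.fst V ptT).map (Mor.id S)) (dualK _ e₂) *
      (pullK ((Mor.fst V ptT).map (Mor.id S)) l₂ - pullK ((Mor.fst V ptT).map (Mor.id S)) e₂)) * h1
  rw [h2, (pK _ S).map_add, (pK _ S).map_add, pK_T hV hS, pK_T hV hS, pK_T hV hS]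
  simp only [map_add, RingHom.map_mul, map_sub, map_neg, ← pullK_dualK, dualK_tK, tK_zero, neg_neg,
    map_one]
  ring

section two

variable {L₁ M₁ L₂ M₂ : K0 S} {v₁ v₂ n₁ n₂ o₁ o₂ : ℕ}
  (T₁ : Tower S L₁ M₁ v₁ n₁ o₁) (T₂ : Tower S L₂ M₂ v₂ n₂ o₂)

theorem Fx_var : (Fx T₁ T₂).IsVar (v₁ + 2 * n₁ + (v₂ + 2 * n₂)) :=
  (T₁.var n₁ le_rfl).prod (T₂.var n₂ le_rfl)

theorem hb_eq (hS : S.IsProj) :
    -dualK _ (pK ((Fx T₁ T₂).prod ptT) S (dualK _ (tSum (E1 T₁ T₂) (E2 T₁ T₂)) *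
      (tSum (pullK (Mor.snd _ _) L₁) (pullK (Mor.snd _ _) L₂) - tSum (E1 T₁ T₂) (E2 T₁ T₂)))) =
    pullK (Mor.fst _ _) (bZ T₁ T₂) + tK _ 1 * pullK (Mor.fst _ _) (bP T₁ T₂) +
      tK _ (-1) * pullK (Mor.fst _ _) (bM T₁ T₂) :=
  hb_gen (Fx_var T₁ T₂) hS _ _ _ _

end two

/-- minus the virtual cotangent space of a rank one Quot space -/
def _root_.Vale.Agent.P297Z.Tower.bz {L M : K0 S} {v n₀ o₀ : ℕ} (T : Tower S L M v n₀ o₀) (n : ℕ) : K0 (T.X n) :=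
  -dualK _ (pK (T.X n) S (dualK _ (T.E n) * (pullK (Mor.snd _ _) L - T.E n)))

theorem pullK_map_snd (f : Mor W V) (a : K0 S) :
    pullK (f.map (Mor.id S)) (pullK (Mor.snd V S) a) = pullK (Mor.snd W S) a := by
  rw [← pullK_comp, Mor.snd_map, Mor.id_comp]

theorem pullK_map_fst (f : Mor W V) (a : K0 V) :
    pullK (f.map (Mor.id S)) (pullK (Mor.fst V S) a) = pullK (Mor.fst W S) (pullK f a) := by
  rw [← pullK_comp, ← pullK_comp, Mor.fst_map]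

theorem pullK_map_map (f : Mor W V) (g : Mor V Y) (a : K0 (Y.prod S)) :
    pullK (f.map (Mor.id S)) (pullK (g.map (Mor.id S)) a) = pullK ((g.comp f).map (Mor.id S)) a := by
  rw [← pullK_comp, Mor.map_map, Mor.id_comp]

theorem bZ_eq (hS : S.IsProj) {L₁ M₁ L₂ M₂ : K0 S} {v₁ v₂ n₁ n₂ o₁ o₂ : ℕ}
    (T₁ : Tower S L₁ M₁ v₁ n₁ o₁) (T₂ : Tower S L₂ M₂ v₂ n₂ o₂) :
    bZ T₁ T₂ = pullK (Mor.fst _ _) (T₁.bz n₁) + pullK (Mor.snd _ _) (T₂.bz n₂) := by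
  have h := cn (Fx_var T₁ T₂)
  rw [Tower.bz, Tower.bz, map_neg, map_neg, pullK_dualK, pullK_dualK,
    pK_pull h (cn (T₁.var n₁ le_rfl)) hS, pK_pull h (cn (T₂.var n₂ le_rfl)) hS, RingHom.map_mul,
    RingHom.map_mul, RingHom.map_sub, RingHom.map_sub, pullK_dualK, pullK_dualK, pullK_map_snd, pullK_map_snd, ← sub_eq_add_neg]
  rfl

/-! ### ranks -/

/-- the identity or the dual -/
def dd (b : Bool) (V : Spc) : K0 V →+* K0 V := cond b (dualK V) (RingHom.id _)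

theorem pullK_dd (b : Bool) (f : Mor W V) (a : K0 V) : pullK f (dd b V a) = dd b W (pullK f a) := by
  cases b
  · rfl
  · exact pullK_dualK f a

theorem rk_dd (b : Bool) (a : K0 V) : rk V (dd b V a) = rk V a := by
  cases b
  · rfl
  · exact rk_dualK a

/-- the ranks of the push-forwards of classes on graphs -/
def DRk (S : Spc) : Prop := ∀ (W : Spc) (e : ℕ), W.IsVar e → ∀ (s : Mor W S) (b : Bool)
  (x : K0 (W.prod S)), rk W (pK W S (dd b _ (pullK (s.map (Mor.id S)) (delta S)) * x)) = rk _ x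

theorem rk_pK_pull (hW : W.IsVar e) (hV : V.IsVar e') (hS : S.IsProj) (f : Mor W V)
    (a : K0 (V.prod S)) : rk W (pK W S (pullK (f.map (Mor.id S)) a)) = rk V (pK V S a) := by
  rw [← pK_pull (cn hW) (cn hV) hS, rk_pullK]

theorem isCls_rk {a : K0 V} {r : ℕ} (h : IsCls a r) : rk V a = r := by
  obtain ⟨B, rfl, rfl⟩ := h
  exact rk_cls B

section tower

variable {L M : K0 S} {v n₀ o₀ : ℕ} (T : Tower S L M v n₀ o₀)

include T in
theorem rkM : rk S M = 1 := by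
  have := T.rkE 0 (Nat.zero_le _)
  rwa [T.E0, RingHom.map_mul, rk_pullK, rk_pullK, rk_pullK, OP, rk_line, one_mul] at this

theorem rk_pK (hS : S.IsProj) (hD : DRk S) (hY : Y.IsVar e) (b : Bool) (y : K0 (Y.prod S)) :
    ∀ n ≤ n₀, rk _ (pK ((T.X n).prod Y) S (dd b _ (pullK ((Mor.fst _ Y).map (Mor.id S)) (T.E n)) *
      pullK ((Mor.snd _ Y).map (Mor.id S)) y)) =
    rk _ (pK Y S (dd b _ (pullK (Mor.snd Y S) M) * y)) - n * rk _ y := by
  intro n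
  induction n with
  | zero =>
    intro h
    have hv := (T.var 0 h).prod hY
    rw [T.E0, RingHom.map_mul, pullK_map_fst, pullK_map_snd, RingHom.map_mul, ← pullK_dd, mul_assoc,
      pK_mul (cn hv) hS, RingHom.map_mul, rk_dd, rk_pullK, rk_pullK, OP, rk_line, one_mul,
      ← pullK_map_snd (Mor.snd (T.X 0) Y), ← pullK_dd, ← RingHom.map_mul, rk_pK_pull hv hY hS]
    simp
  | succ n ih =>
    intro h
    have hN := (T.varN n h).prod hY
    have h1 := rk_pK_pull hN ((T.var (n + 1) h).prod hY) hS ((T.ρ n).map (Mor.id Y))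
    have h2 := rk_pK_pull hN ((T.var n (by omega)).prod hY) hS
      (((Mor.fst _ _).comp (T.π n)).map (Mor.id Y))
    have h3 := hD _ _ hN (((Mor.snd _ _).comp (T.π n)).comp (Mor.fst _ Y)) b
      (dd b _ (pullK (Mor.fst _ S) (pullK (Mor.fst _ Y) (T.l n))) *
        pullK ((Mor.snd _ Y).map (Mor.id S)) y)
    rw [RingHom.map_mul, rk_dd, rk_pullK, rk_pullK, rk_pullK, isCls_rk (T.lcls n h)] at h3
    have ih' := ih (by omega)
    rw [← h2, RingHom.map_mul, pullK_dd, pullK_map_map, pullK_map_map, Mor.fst_map, Mor.snd_map,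
      Mor.id_comp] at ih'
    rw [← h1, RingHom.map_mul, pullK_dd, pullK_map_map, pullK_map_map, Mor.fst_map, Mor.snd_map,
      Mor.id_comp, ← pullK_map_map, T.step n h, map_sub, RingHom.map_mul, pullK_map_map, pullK_map_map,
      pullK_map_fst, map_sub, RingHom.map_mul, sub_mul, map_sub, map_sub, ih', mul_assoc,
      mul_left_comm, h3]
    push_cast
    ring

theorem rk_pK_snd (hS : S.IsProj) (hD : DRk S) (b : Bool) (c : K0 S) {n : ℕ} (hn : n ≤ n₀) :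
    rk _ (pK (T.X n) S (dd b _ (T.E n) * pullK (Mor.snd _ S) c)) =
      chiG S (kact S (dd b S M * c) (oG S)) - n * rk S c := by
  have hv := T.var n hn
  have := rk_pK T hS hD hv b (pullK (Mor.snd _ S) c) n hn
  rw [pullK_map_snd, ← pullK_map_snd (Mor.fst (T.X n) (T.X n)), ← pullK_dd, ← RingHom.map_mul,
    rk_pK_pull (hv.prod hv) hv hS, ← pullK_dd, ← RingHom.map_mul, pK_snd (cn hv) hS, rk_pullK] at this
  rw [this]
  simp

end tower

section two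

variable {L₁ M₁ L₂ M₂ : K0 S} {v₁ v₂ n₁ n₂ o₁ o₂ : ℕ}
  (T₁ : Tower S L₁ M₁ v₁ n₁ o₁) (T₂ : Tower S L₂ M₂ v₂ n₂ o₂)

theorem rk_pK_E21 (hS : S.IsProj) (hD : DRk S) :
    rk _ (pK _ S (dualK _ (E2 T₁ T₂) * E1 T₁ T₂)) =
      chiG S (kact S (dualK S M₂ * M₁) (oG S)) - n₁ - n₂ := by
  have h1 := rk_pK T₁ hS hD (T₂.var n₂ le_rfl) false (dualK _ (T₂.E n₂)) n₁ le_rfl
  have h2 := rk_pK_snd T₂ hS hD true M₁ le_rfl
  rw [rk_dualK, T₂.rkE n₂ le_rfl, pullK_dualK, mul_comm, mul_comm (dd _ _ _)] at h1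
  rw [rkM T₁] at h2
  refine h1.trans ?_
  refine (congrArg (· - (n₁ : ℤ) * 1) h2).trans ?_
  show chiG S (kact S (dualK S M₂ * M₁) (oG S)) - _ - _ = _
  ring

theorem rk_pK_E12 (hS : S.IsProj) (hD : DRk S) :
    rk _ (pK _ S (dualK _ (E1 T₁ T₂) * E2 T₁ T₂)) =
      chiG S (kact S (dualK S M₁ * M₂) (oG S)) - n₁ - n₂ := by
  have h1 := rk_pK T₁ hS hD (T₂.var n₂ le_rfl) true (T₂.E n₂) n₁ le_rfl
  have h2 := rk_pK_snd T₂ hS hD false (dualK S M₁) le_rfl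
  rw [T₂.rkE n₂ le_rfl, ← pullK_dd true (Mor.snd _ S), mul_comm (pullK (Mor.snd _ S) _)] at h1
  rw [rk_dualK, rkM T₁, mul_comm _ (dualK S M₁)] at h2
  refine h1.trans ?_
  refine (congrArg (· - (n₁ : ℤ) * 1) h2).trans ?_
  show chiG S (kact S (dualK S M₁ * M₂) (oG S)) - _ - _ = _
  ring

theorem rk_bP (hS : S.IsProj) (hD : DRk S) (hL : rk S L₁ = 1) :
    rk _ (bP T₁ T₂) = chiG S (kact S (dualK S M₂ * M₁) (oG S)) -
      chiG S (kact S (dualK S M₂ * L₁) (oG S)) - n₁ := by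
  have h2 := rk_pK_snd T₂ hS hD true L₁ le_rfl
  rw [← rk_pK_pull (Fx_var T₁ T₂) (T₂.var n₂ le_rfl) hS (Mor.snd _ _), RingHom.map_mul, pullK_dd,
    pullK_map_snd, hL] at h2
  rw [bP, map_neg, rk_dualK, mul_sub, map_sub, map_sub, rk_pK_E21 T₁ T₂ hS hD]
  refine (congrArg (fun x => -(x - _)) h2).trans ?_
  show -(chiG S (kact S (dualK S M₂ * L₁) (oG S)) - _ - _) = _
  ring

theorem rk_bM (hS : S.IsProj) (hD : DRk S) (hL : rk S L₂ = 1) :
    rk _ (bM T₁ T₂) = chiG S (kact S (dualK S M₁ * M₂) (oG S)) -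
      chiG S (kact S (dualK S M₁ * L₂) (oG S)) - n₂ := by
  have h2 := rk_pK_snd T₁ hS hD true L₂ le_rfl
  rw [← rk_pK_pull (Fx_var T₁ T₂) (T₁.var n₁ le_rfl) hS (Mor.fst _ _), RingHom.map_mul, pullK_dd,
    pullK_map_snd, hL] at h2
  rw [bM, map_neg, rk_dualK, mul_sub, map_sub, map_sub, rk_pK_E12 T₁ T₂ hS hD]
  refine (congrArg (fun x => -(x - _)) h2).trans ?_
  show -(chiG S (kact S (dualK S M₁ * L₂) (oG S)) - _ - _) = _
  ring

end two

end Vale.Agent.P297Z.Gl
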