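import Vale.Agent.P297Z.Top.Defs

/-!
# P297: the shape of the contributions and the statements of the last blocks
-/

noncomputable section

namespace Vale.Agent.P297Z

/-- the constant map -/
def Mor.cst (W : Spc) {Y : Spc} (z : Y.Pt) : Mor W Y where
  φ := (Algebra.ofId ℂ W.R).comp z.1
  ρ := 0
  wt_map := fun _ r _ g => by
    change W.act g (algebraMap ℂ W.R (z.1 r)) = chr 0 g • algebraMap ℂ W.R (z.1 r)
    rw [AlgHom.commutes]
    simp [chr]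
  pt_map := fun w => by
    obtain ⟨f, hf, h⟩ := z.2
    refine ⟨f, hf, ?_⟩
    change w.1 (algebraMap ℂ W.R (z.1 f)) ≠ 0
    rw [AlgHom.commutes]
    exact h

/-- the class in `K0` of a point -/
def dK (S : Spc) (z : S.Pt) : K0 S :=
  -cc 2 (pullK (Mor.lift (Mor.cst S z) (Mor.id S)) (delta S))

/-- the action of a correspondence on the difference of two points -/
def Phi (S : Spc) (τ : G S →+ ℂ) (z z' : S.Pt) : G (S.prod S) →+ ℂ :=
  τ.comp ((fstar (Mor.snd S S)).comp (kact _ (pullK (Mor.fst S S) (dK S z - dK S z'))))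

/-- the pairing of a correspondence with a class in both slots -/
def Psi (S : Spc) (w : K0 S) : G (S.prod S) →+ ℂ :=
  (Int.castAddHom ℂ).comp ((chiG _).comp
    (kact _ (pullK (Mor.fst S S) w * pullK (Mor.snd S S) w)))

/-- the value of a functional on the contribution, with the class `∑ a i • w i` in `k` slots -/
def GamF {S : Spc} {L₁ M₁ L₂ M₂ : K0 S} {v₁ v₂ n₁ n₂ o₁ o₂ : ℕ}
    (T₁ : Tower S L₁ M₁ v₁ n₁ o₁) (T₂ : Tower S L₂ M₂ v₂ n₂ o₂) (k : ℕ) {ι : Type} [Fintype ι]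
    (a : ι → ℂ) (w : ι → K0 S) (Φ : G (S.prod S) →+ ℂ) : ℂ :=
  ∑ f : Fin k → ι, (∏ j, a (f j)) * Φ (Gam T₁ T₂ k fun j => w (f j))

namespace Sf

variable {K : Type} [Field K] [Algebra ℂ K]

/-- the contribution acts as the number `N` on zero-cycles of degree zero -/
def Surf.Shape (S : Surf K) (h : S.All) {lam D₁ D₂ : Div S.W} {n₁ n₂ : ℕ}
    (T₁ : S.Tw h lam D₁ n₁) (T₂ : S.Tw h 0 D₂ n₂) (k : ℕ) (N M : ℂ) : Prop :=
  ∀ (ι : Type) [Fintype ι] (a : ι → ℂ) (u : ι → Div S.W),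
    ∑ i, ∑ j, a i * a j * inter (u i) (u j) = 0 → ∑ i, a i * inter (u i) S.kap = 0 →
    ∑ i, a i * inter (u i) lam = 0 → ∑ i, a i * inter (u i) (D₁ + D₂) = 0 →
    (∀ (τ : G (S.spc h) →+ ℂ) (p q : Pt S.W) (z z' : (S.spc h).Pt), S.Over h z p → S.Over h z' q →
      GamF T₁ T₂ k a (fun i => S.lK h (u i) - 1) (Phi _ τ z z') =
        (∑ i, a i * inter (u i) D₁) ^ k * (N * (τ (S.ptG h p) - τ (S.ptG h q)))) ∧
    ∀ u' : Div S.W, inter u' S.kap = 0 → inter u' lam = 0 → inter u' (D₁ + D₂) = 0 →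
      ∑ i, a i * inter (u i) u' = 0 →
      GamF T₁ T₂ k a (fun i => S.lK h (u i) - 1) (Psi _ (S.lK h u' - 1)) =
        (∑ i, a i * inter (u i) D₁) ^ k * (N * inter u' u' + M * (inter u' D₁ : ℂ) ^ 2)

/-- the universal shape -/
def SHAPE : Prop := ForAll fun S => ∀ (h : S.All), S.Good → ∀ (lam D₁ D₂ : Div S.W) (n₁ n₂ : ℕ)
  (T₁ : S.Tw h lam D₁ n₁) (T₂ : S.Tw h 0 D₂ n₂) (k : ℕ), H0 D₁ ≠ ⊥ → H0 D₂ ≠ ⊥ →
  ∃ N M, S.Shape h T₁ T₂ k N M

/-- the loci without virtual class -/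
def VAN : Prop := ForAll fun S => ∀ (h : S.All), S.Good → ∀ (lam D₁ D₂ : Div S.W) (n₁ n₂ : ℕ)
  (T₁ : S.Tw h lam D₁ n₁) (T₂ : S.Tw h 0 D₂ n₂) (k : ℕ), H0 D₁ ≠ ⊥ → H0 D₂ ≠ ⊥ →
  chi D₁ ≤ 0 ∨ chi D₂ ≤ 0 → S.Shape h T₁ T₂ k 0 0

/-- the functionals kill the classes of dimension at most one -/
def KILL : Prop := ForAll fun S => ∀ (h : S.All), ∀ g ∈ Fd ((S.spc h).prod (S.spc h)) 2,
  (∀ τ z z', Phi _ τ z z' g = 0) ∧ ∀ u : Div S.W, Psi _ (S.lK h u - 1) g = 0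

/-- a function on points that kills the principal cycles extends to `G` -/
def TAU : Prop := ForAll fun S => ∀ (h : S.All) (c : Pt S.W → ℂ), RatOK c →
  ∃ τ : G (S.spc h) →+ ℂ, ∀ p, τ (S.ptG h p) = c p

/-- elementary facts on points and line bundles -/
def PTS : Prop := ForAll fun S => ∀ (h : S.All),
  (∀ p, ∃ z, S.Over h z p) ∧ ∀ D, rk _ (S.lK h D) = 1

end Sf

end Vale.Agent.P297Z
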