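import Vale.Agent.P297Z.Surf.Spc

/-!
# P297: the towers of rank one Quot spaces, the contribution of a fixed locus, the relation
-/

noncomputable section

namespace Vale.Agent.P297Z

open PowerSeries

/-- the point without torus -/
abbrev pt0 : Spc := Spc.pt Empty

/-- the powers of a space -/
def Spc.pow (S : Spc) : ℕ → Spc
  | 0 => pt0
  | k + 1 => (Spc.pow S k).prod S

/-- the projections of the powers -/
def slot (S : Spc) : ∀ (k : ℕ), Fin k → Mor (S.pow k) S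
  | 0, i => i.elim0
  | k + 1, i => Fin.lastCases (Mor.snd _ _) (fun j => (slot S k j).comp (Mor.fst _ _)) i

/-- the projective space of dimension `v` -/
def PP (v : ℕ) : Spc := pt0.adj (Fin (v + 1)) fun _ => 0

/-- the line bundle `O(k)` on the projective space -/
def OP (v : ℕ) (k : ℤ) : K0 (PP v) := line (PP v) fun _ => k

/-- an irreducible projective space of dimension `n` -/
structure Spc.IsVar (X : Spc) (n : ℕ) : Prop where
  proj : X.IsProj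
  dom : IsDomain X.R
  ne : Nonempty X.Pt
  dim : ringKrullDim X.R = (n + Fintype.card X.J : ℕ)

/-- the class of a bundle of rank `r` -/
def IsCls {X : Spc} (a : K0 X) (r : ℕ) : Prop := ∃ B : Bun X, B.rk = r ∧ B.cls = a

/-- the diagonal -/
def diag (S : Spc) : Mor S (S.prod S) := Mor.lift (Mor.id S) (Mor.id S)

/-- the ideal of the diagonal -/
def diagI (S : Spc) : Ideal (S.prod S).R :=
  (S.prod S).van {w | S.Orb ((Mor.fst S S).onPt w) ((Mor.snd S S).onPt w)}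

/-- `a` is the class in `K0` of a module that has a resolution of length one by bundles -/
def IsRes {X : Spc} (M : GMod X) (a : K0 X) : Prop :=
  ∃ (B A : Bun X) (f : B.M.M →ₗ[X.R] A.M.M) (g : A.M.M →ₗ[X.R] M.M),
    GMod.SES B.M A.M M f g ∧ a = A.cls - B.cls

open Classical in
/-- the class of the diagonal -/
def delta (S : Spc) : K0 (S.prod S) :=
  if h : ∃ a, ∃ hs : (GMod.one (S.prod S)).Stab (diagI S),
    IsRes ((GMod.one (S.prod S)).sub (diagI S) hs) a then 1 - h.choose else 0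

/-- The spaces of the subsheaves `E = I_Z ⊗ M ⊗ O(-1)` of `L`, `Z` of length `n ≤ n₀`, over the
linear system of dimension `v`, and the nested spaces. -/
structure Tower (S : Spc) (L M : K0 S) (v n₀ o₀ : ℕ) where
  X : ℕ → Spc
  var : ∀ n ≤ n₀, (X n).IsVar (v + 2 * n)
  E : ∀ n, K0 ((X n).prod S)
  rkE : ∀ n ≤ n₀, rk _ (E n) = 1
  p : ∀ n, Mor (X n) (PP v)
  p0 : fstar (p 0) (oG _) - oG _ ∈ Fd (PP v) v
  E0 : E 0 = pullK (Mor.fst _ _) (pullK (p 0) (OP v (-1))) * pullK (Mor.snd _ _) M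
  ob : ∀ n ≤ n₀, IsCls ((v + 1 : ℕ) • pullK (p n) (OP v (-1)) -
    dualK _ (pK (X n) S (pullK (Mor.snd _ _) L * dualK _ (E n)))) (o₀ + n)
  N : ℕ → Spc
  varN : ∀ n < n₀, (N n).IsVar (v + 2 * n + 2)
  π : ∀ n, Mor (N n) ((X n).prod S)
  ρ : ∀ n, Mor (N n) (X (n + 1))
  l : ∀ n, K0 (N n)
  lcls : ∀ n < n₀, IsCls (l n) 1
  pρ : ∀ n < n₀, ((p (n + 1)).comp (ρ n)).Homot ((p n).comp ((Mor.fst _ _).comp (π n)))
  step : ∀ n < n₀, pullK ((ρ n).map (Mor.id S)) (E (n + 1)) =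
    pullK (((Mor.fst _ _).comp (π n)).map (Mor.id S)) (E n) -
      pullK (Mor.fst _ _) (l n) * pullK (((Mor.snd _ _).comp (π n)).map (Mor.id S)) (delta S)
  c : ℕ → ℕ
  cpos : ∀ n < n₀, 0 < c n
  c0 : c 0 = 1
  ρstar : ∀ n < n₀, fstar (ρ n) (oG _) - c n • oG _ ∈ Fd (X (n + 1)) (v + 2 * n + 2)
  πstar : ∀ n < n₀, ∀ i, fstar (π n) (kact _ ((l n - 1) ^ i) (oG _)) -
    kact _ (cc i (-E n)) (oG _) ∈ Fd ((X n).prod S) (v + 2 * n + 2 - i)

namespace Tower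

variable {S : Spc} {L M : K0 S} {v n₀ o₀ : ℕ} (T : Tower S L M v n₀ o₀)

/-- the dual of the obstruction bundle -/
def obv (n : ℕ) : K0 (T.X n) := (v + 1 : ℕ) • pullK (T.p n) (OP v (-1)) -
  dualK _ (pK (T.X n) S (pullK (Mor.snd _ _) L * dualK _ (T.E n)))

end Tower

/-- the leading part of the second Chern class of `E₁ + t E₂` -/
def kappa {W : Spc} (E₁ E₂ : K0 W) : (K0 W)⟦X⟧ :=
  C (cc 1 E₁) * X * (1 + C (cc 1 E₂) * X) + C (cc 2 E₁ + cc 2 E₂) * X ^ 2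

section Gam

variable {S : Spc} {L₁ M₁ L₂ M₂ : K0 S} {v₁ v₂ n₁ n₂ o₁ o₂ : ℕ}
  (T₁ : Tower S L₁ M₁ v₁ n₁ o₁) (T₂ : Tower S L₂ M₂ v₂ n₂ o₂)

/-- the fixed locus -/
abbrev Fx : Spc := (T₁.X n₁).prod (T₂.X n₂)

/-- the first universal class -/
def E1 : K0 ((Fx T₁ T₂).prod S) := pullK ((Mor.fst _ _).map (Mor.id S)) (T₁.E n₁)

/-- the second universal class -/
def E2 : K0 ((Fx T₁ T₂).prod S) := pullK ((Mor.snd _ _).map (Mor.id S)) (T₂.E n₂)

/-- minus the part of weight `t` of the virtual cotangent space -/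
def bP : K0 (Fx T₁ T₂) :=
  -dualK _ (pK _ S (dualK _ (E2 T₁ T₂) * (pullK (Mor.snd _ _) L₁ - E1 T₁ T₂)))

/-- minus the part of weight `t⁻¹` of the virtual cotangent space -/
def bM : K0 (Fx T₁ T₂) :=
  -dualK _ (pK _ S (dualK _ (E1 T₁ T₂) * (pullK (Mor.snd _ _) L₂ - E2 T₁ T₂)))

/-- the integrand on the fixed locus -/
def core : (K0 (Fx T₁ T₂))⟦X⟧ :=
  C (pullK (Mor.fst _ _) (cc (o₁ + n₁) (T₁.obv n₁)) *
      pullK (Mor.snd _ _) (cc (o₂ + n₂) (T₂.obv n₂))) * X ^ (o₁ + n₁ + (o₂ + n₂)) *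
    cT (bP T₁ T₂) * rescale (-1) (cT (bM T₁ T₂))

/-- the space with `k + 2` slots -/
abbrev Wk (X S : Spc) (k : ℕ) : Spc := (X.prod (S.pow k)).prod (S.prod S)

/-- the projection to the base -/
def Wk.base (X S : Spc) (k : ℕ) : Mor (Wk X S k) X := (Mor.fst _ _).comp (Mor.fst _ _)

/-- the slots -/
def Wk.sl (X S : Spc) (k : ℕ) : Fin k ⊕ Bool → Mor (Wk X S k) S
  | .inl i => (slot S k i).comp ((Mor.snd _ _).comp (Mor.fst _ _))
  | .inr false => (Mor.fst _ _).comp (Mor.snd _ _)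
  | .inr true => (Mor.snd _ _).comp (Mor.snd _ _)

/-- a class on `X × S` put at a slot -/
def Wk.at {X S : Spc} (k : ℕ) (i : Fin k ⊕ Bool) (E : K0 (X.prod S)) : K0 (Wk X S k) :=
  pullK (Mor.lift (Wk.base X S k) (Wk.sl X S k i)) E

/-- the contribution of the fixed locus, a class of dimension two on `S × S` -/
def Gam (k : ℕ) (w : Fin k → K0 S) : G (S.prod S) :=
  ((-1 : ℤ) ^ (rk _ (bM T₁ T₂)).natAbs) • fstar (Mor.snd _ _ : Mor (Wk (Fx T₁ T₂) S k) _)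
    (kact _ (coeff (v₁ + 2 * n₁ + (v₂ + 2 * n₂) + 2 * k + 2)
      (map (pullK (Wk.base _ S k)) (core T₁ T₂) *
        (∏ i, kappa (Wk.at k i (E1 T₁ T₂)) (Wk.at k i (E2 T₁ T₂))) *
        ∏ i, (C (pullK (Wk.sl _ S k (.inl i)) (w i)) * X))) (oG _))

end Gam

namespace Sf

variable {K : Type} [Field K] [Algebra ℂ K]

/-- linear equivalence -/
def Lin {W : Submodule ℂ K} (D D' : Div W) : Prop := ∃ g : K, g ≠ 0 ∧ D' = D + div W g

/-- the numerical data of a fixed locus -/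
structure IsLocus {W : Submodule ℂ K} (lam β : Div W) (c : ℤ) (D₁ D₂ : Div W) (n₁ n₂ : ℕ) :
    Prop where
  eff₁ : H0 D₁ ≠ ⊥
  eff₂ : H0 D₂ ≠ ⊥
  sum : ∀ x, inter (D₁ + D₂) x = inter β x
  num : (n₁ + n₂ : ℤ) = c + inter (lam - D₁) D₂

/-- the towers of a divisor `D` inside `L` -/
abbrev Surf.Tw (S : Surf K) (h : S.All) (L D : Div S.W) (n : ℕ) : Type 1 :=
  Tower (S.spc h) (S.lK h L) (S.lK h (L - D)) (h0 D - 1).toNat n (h0 D - chi D).toNat

/-- The relation given by the localisation on the Quot space of `O(lam) + t O`. -/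
def MOD : Prop := ForAll fun S => ∀ (h : S.All), S.Good → S.Cech1 0 →
  ∀ (lam β : Div S.W) (c : ℤ) (k : ℕ), 2 * c + inter lam β - inter S.kap β = k + 4 →
  ∃ (ι : Type) (_ : Fintype ι) (D₁ D₂ : ι → Div S.W) (n₁ n₂ : ι → ℕ)
    (T₁ : ∀ i, S.Tw h lam (D₁ i) (n₁ i)) (T₂ : ∀ i, S.Tw h 0 (D₂ i) (n₂ i)),
    (∀ i, IsLocus lam β c (D₁ i) (D₂ i) (n₁ i) (n₂ i)) ∧
    (∀ A₁ A₂ m₁ m₂, IsLocus lam β c A₁ A₂ m₁ m₂ →
      ∃! i, Lin A₁ (D₁ i) ∧ Lin A₂ (D₂ i) ∧ m₁ = n₁ i ∧ m₂ = n₂ i) ∧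
    ∀ w : Fin k → K0 (S.spc h), (∀ i, rk _ (w i) = 0) →
      ∑ i, Gam (T₁ i) (T₂ i) k w ∈ Fd ((S.spc h).prod (S.spc h)) 2

end Sf

end Vale.Agent.P297Z
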