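import Vale.Agent.P297Z.Top.Ev

/-!
# P297: the first stage from the blocks
-/

noncomputable section

namespace Vale.Agent.P297Z

namespace Num

variable {Λ Cv : Type} [AddCommGroup Λ] {S : Surf Λ Cv} {r : ℕ} (c : S.Cfg r)

theorem Surf.Cfg.E_sumY (x : Fin 5 ⊕ Fin (r + 2)) :
    S.B (c.E x) (∑ i : Fin 5, c.E (.inl i)) = if x.isLeft then -1 else 0 := by
  rw [map_sum]
  simp only [c.orth]
  rcases x with x | x
  · simp
  · simp

theorem Surf.Cfg.E_K (x : Fin 5 ⊕ Fin (r + 2)) : S.B (c.E x) S.K = -1 := by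
  rw [c.hK, map_add, map_sum, S.symm _ c.Kp, c.KE]
  simp [c.orth]

theorem Surf.Cfg.E_lam (x : Fin 5 ⊕ Fin (r + 2)) :
    S.B (c.E x) c.lam = if x.isLeft then 1 else 0 := by
  rw [Surf.Cfg.lam, map_neg, c.E_sumY]
  split_ifs <;> simp

theorem Surf.Cfg.E_bet (x : Fin 5 ⊕ Fin (r + 2)) :
    S.B (c.E x) c.bet = if x.isLeft then -1 else 0 := by
  rw [Surf.Cfg.bet, map_add, map_add, map_nsmul, map_nsmul, S.symm _ c.Kp, S.symm _ c.F, c.KE,
    c.FE, c.E_sumY]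
  simp

theorem Surf.Cfg.vd : 2 * 7 + S.B c.lam c.bet - S.B S.K c.bet = 16 := by
  have h1 : S.B c.lam c.bet = 5 := by
    rw [Surf.Cfg.lam, map_neg, AddMonoidHom.neg_apply, map_sum, AddMonoidHom.finsetSum_apply]
    simp [c.E_bet]
  have h2 : S.B S.K c.bet = 3 := by
    rw [c.hK, map_add, AddMonoidHom.add_apply, map_sum, AddMonoidHom.finsetSum_apply,
      Fintype.sum_sum_type]
    simp only [c.E_bet]
    rw [Surf.Cfg.bet, map_add, map_add, map_nsmul, map_nsmul, map_sum, c.KK, c.KF]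
    simp [c.KE]
  rw [h1, h2]
  norm_num

theorem Surf.Cfg.up_apply (x : Λ) :
    S.B c.up x = S.B (c.E (.inr 0)) x - S.B (c.E (.inr 1)) x := by
  rw [Surf.Cfg.up, map_sub, AddMonoidHom.sub_apply]

theorem Surf.Cfg.up_up : S.B c.up c.up = -2 := by
  rw [c.up_apply, Surf.Cfg.up, map_sub, map_sub]
  simp [c.orth]

theorem Surf.Cfg.E_up (i : Fin 5) : S.B (c.E (.inl i)) c.up = 0 := by
  rw [Surf.Cfg.up, map_sub]
  simp [c.orth]

end Num

namespace Sf

variable {K : Type} [Field K] [Algebra ℂ K]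

theorem gamF_sum {S : Spc} {ι κ : Type} [Fintype ι] [Fintype κ] (k : ℕ) (a : κ → ℂ)
    (g : ι → (Fin k → κ) → G (S.prod S)) (Φ : G (S.prod S) →+ ℂ)
    (h : ∀ f, Φ (∑ i, g i f) = 0) :
    ∑ i, ∑ f : Fin k → κ, (∏ j, a (f j)) * Φ (g i f) = 0 := by
  rw [Finset.sum_comm]
  refine Finset.sum_eq_zero fun f _ => ?_
  rw [← Finset.mul_sum, ← map_sum, h f, mul_zero]

/-- the principal divisors -/
def prin (S : Surf K) (h : S.All) : AddSubgroup (Div S.W) where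
  carrier := {D | ∃ g : K, g ≠ 0 ∧ D = div S.W g}
  zero_mem' := ⟨1, one_ne_zero, by
    ext C
    rw [div_apply h.toLoc.toLoc2]
    exact (by simpa using C.ord_const 1 : C.ord 1 = 0).symm⟩
  add_mem' := by
    rintro _ _ ⟨g, hg, rfl⟩ ⟨g', hg', rfl⟩
    refine ⟨g * g', mul_ne_zero hg hg', ?_⟩
    ext C
    rw [Finsupp.add_apply, div_apply h.toLoc.toLoc2, div_apply h.toLoc.toLoc2,
      div_apply h.toLoc.toLoc2]
    exact (Pl.ord_mul _ hg hg').symm
  neg_mem' := by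
    rintro _ ⟨g, hg, rfl⟩
    refine ⟨g⁻¹, inv_ne_zero hg, ?_⟩
    ext C
    rw [Finsupp.neg_apply, div_apply h.toLoc.toLoc2, div_apply h.toLoc.toLoc2]
    have h1 := Pl.ord_mul C.pl hg (inv_ne_zero hg)
    rw [mul_inv_cancel₀ hg] at h1
    have h2 : C.pl.ord 1 = 0 := by simpa using C.ord_const 1
    unfold Crv.ord
    omega

theorem lin_iff (S : Surf K) (h : S.All) (A D : Div S.W) : Lin A D ↔ D - A ∈ prin S h := by
  constructor
  · rintro ⟨g, hg, rfl⟩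
    exact ⟨g, hg, by abel⟩
  · rintro ⟨g, hg, h1⟩
    exact ⟨g, hg, by rw [← h1]; abel⟩

theorem chiN_eq (S : Surf K) (h : S.All) (hG : S.Good) (D : Div S.W) :
    Eval.chiN (numSurf S h hG).B S.kap D = chi D := by
  have h1 := h.rr D
  rw [hG.chi_zero] at h1
  rw [Eval.chiN, numSurf_B, numSurf_B]
  omega

end Sf

end Vale.Agent.P297Z
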