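import Vale.Agent.P297Z.K.Tan
import Vale.Agent.P297Z.Top.Defs

/-!
# P297: the statement of the virtual localisation theorem at leading order
-/

noncomputable section

namespace Vale.Agent.P297Z

open PowerSeries

/-- the point with a one dimensional torus -/
abbrev ptT : Spc := Spc.pt Unit

/-- the character `t ^ k` on `X × ptT` -/
def tK (X : Spc) (k : ℤ) : K0 (X.prod ptT) := pullK (Mor.snd X ptT) (line ptT fun _ => k)

/-- the classes of degree at least `m`, where `1 - t` has degree one -/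
def Deg (X : Spc) (m : ℕ) : AddSubgroup (K0 (X.prod ptT)) :=
  AddSubgroup.closure {x | ∃ (k : ℤ) (a b : ℕ) (y : K0 X), m ≤ a + b ∧ y ∈ FF X b ∧
    x = tK X k * (1 - tK X 1) ^ a * pullK (Mor.fst X ptT) y}

/-- `s` is the leading part of the class `x` of degree `m` -/
def Lead (X : Spc) (m : ℕ) (x : K0 (X.prod ptT)) (s : (K0 X)⟦X⟧) : Prop :=
  (∀ b, coeff b s ∈ FF X b) ∧ (∀ b, m < b → coeff b s = 0) ∧
    x - ∑ b ∈ Finset.range (m + 1), (1 - tK X 1) ^ (m - b) * pullK (Mor.fst X ptT) (coeff b s) ∈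
      Deg X (m + 1)

/-- the projective space with a linear action of the torus -/
abbrev Amb (ι : Type) [Fintype ι] [Nonempty ι] (d : ι → ℤ) : Spc := ptT.adj ι fun a _ => d a

/-- the coordinates -/
def Amb.x {ι : Type} [Fintype ι] [Nonempty ι] (d : ι → ℤ) (a : ι) : (Amb ι d).R := MvPolynomial.X a

/-- the partial derivatives -/
def Amb.pd {ι : Type} [Fintype ι] [Nonempty ι] (d : ι → ℤ) (a : ι) (f : (Amb ι d).R) : (Amb ι d).R :=
  MvPolynomial.pderiv (R := ℂ) a f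

/-- the map `(X × W) × ptT ⟶ Q × W` of a map `X × ptT ⟶ Q` -/
def Mor.mid {X Q : Spc} (j : Mor (X.prod ptT) Q) (W : Spc) :
    Mor ((X.prod W).prod ptT) (Q.prod W) :=
  Mor.lift (j.comp ((Mor.fst X W).map (Mor.id ptT))) ((Mor.snd X W).comp (Mor.fst _ _))

/-- an obstruction theory on the zero set of an ideal of the ambient space -/
structure Obs (ι : Type) [Fintype ι] [Nonempty ι] (d : ι → ℤ) where
  I : Ideal (Amb ι d).R
  stab : (GMod.one (Amb ι d)).Stab I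
  Z : Set (Amb ι d).Pt
  hZ : (Amb ι d).Stab Z
  mem : ∀ z, z ∈ Z ↔ ∀ a ∈ I, z.1 a = 0
  C : Bun ((Amb ι d).sub Z hZ)
  θ : C.M.M →ₗ[((Amb ι d).sub Z hZ).R]
    ((Mor.incl _ Z hZ).pull ((GMod.one (Amb ι d)).sub I stab)).M
  hom : C.M.IsHom _ θ
  surj : ∀ z : ((Amb ι d).sub Z hZ).Pt, SurjAt z.1 θ

namespace Obs

variable {ι : Type} [Fintype ι] [Nonempty ι] {d : ι → ℤ} (O : Obs ι d)

/-- the reduced zero set -/
abbrev Q : Spc := (Amb ι d).sub O.Z O.hZ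

/-- the inclusion -/
abbrev inc : Mor O.Q (Amb ι d) := Mor.incl _ O.Z O.hZ

/-- A component of the fixed locus. -/
structure Comp where
  X : Spc
  e : ℕ
  var : X.IsVar e
  w : ℤ
  j : Mor (X.prod ptT) O.Q
  jt : j.ρ (Pi.single (some ()) 1) = Pi.single (.inr ()) 1
  fix : ∀ a, d a ≠ w → (O.inc.comp j).φ (Amb.x d a) = 0
  inj : ∀ z z' : (X.prod ptT).Pt, O.Q.Orb (j.onPt z) (j.onPt z') → (X.prod ptT).Orb z z'
  unr : j.Unr
  tan : ∀ (z : (X.prod ptT).Pt) (V : Submodule ℂ ((Amb ι d).R →ₗ[ℂ] ℂ)),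
    (∀ D ∈ V, D ∈ Tan ((O.inc.comp j).onPt z).1 ∧ (∀ a ∈ O.I, D a = 0) ∧
      ∀ a, d a ≠ w → D (Amb.x d a) = 0) → Module.finrank ℂ V ≤ e + 1
  b0 : K0 X
  bp : K0 X
  bm : K0 X
  hb : pullK j O.C.cls - ∑ a, pullK (O.inc.comp j) (line _ fun o => -o.elim 1 fun _ => d a) + 1 =
    pullK (Mor.fst _ _) b0 + tK X 1 * pullK (Mor.fst _ _) bp + tK X (-1) * pullK (Mor.fst _ _) bm
  Ob : Bun X
  rkOb : (Ob.rk : ℤ) = rk X b0 + e
  u : ((Mor.fst X ptT).pull Ob.M).M →ₗ[(X.prod ptT).R] (j.pull O.C.M).M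
  uhom : GMod.IsHom _ _ u
  uinj : ∀ z : (X.prod ptT).Pt, Function.Injective (fibMap z.1 u)
  uzero : ∀ (a : ι) (ψ : (O.inc.pull ((GMod.one (Amb ι d)).sub O.I O.stab)).M →ₗ[O.Q.R] O.Q.R),
    (∀ f : O.I, ψ ((1 : O.inc.Src) ⊗ₜ f) = O.inc.φ (Amb.pd d a f)) →
    ∀ χ : (j.pull O.C.M).M →ₗ[(X.prod ptT).R] (X.prod ptT).R,
    (∀ c : O.C.M.M, χ ((1 : j.Src) ⊗ₜ c) = j.φ (ψ (O.θ c))) → ∀ o, χ (u o) = 0

end Obs

/-- Virtual localisation at leading order. -/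
def LOC : Prop := ∀ (ι : Type) [Fintype ι] [Nonempty ι] (d : ι → ℤ) (O : Obs ι d) (κ : Type)
  [Fintype κ] (F : κ → O.Comp),
  (∀ z : O.Q.Pt, (∃ w, ∀ a, d a ≠ w → z.1 (O.inc.φ (Amb.x d a)) = 0) →
    ∃ i x, O.Q.Orb ((F i).j.onPt x) z) →
  (∀ i i' x x', O.Q.Orb ((F i).j.onPt x) ((F i').j.onPt x') → i = i') →
  ∀ (W Z : Spc) (nW nZ : ℕ), W.IsVar nW → Z.IsVar nZ → ∀ (q : Mor W Z)
    (ins : K0 (O.Q.prod W)) (m : ℕ) (s : ∀ i, (K0 ((F i).X.prod W))⟦X⟧),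
  (∀ i, Lead _ m (pullK ((F i).j.mid W) ins) (s i)) →
  ∀ (vd : ℤ) (δ : ℕ), (∀ i, ((F i).e : ℤ) - (F i).Ob.rk - rk _ (F i).bp - rk _ (F i).bm = vd) →
  (m + δ : ℤ) < vd + nW → δ ≤ nW →
  ∑ i, ((-1 : ℤ) ^ (rk _ (F i).bm).natAbs) • fstar (q.comp (Mor.snd (F i).X W))
    (kact _ (coeff ((F i).e + nW - δ)
      (map (pullK (Mor.fst (F i).X W))
        (C (cc (F i).Ob.rk (F i).Ob.cls) * X ^ (F i).Ob.rk * cT (F i).bp *
          rescale (-1) (cT (F i).bm)) * s i)) (oG _)) ∈ Fd Z δ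

end Vale.Agent.P297Z
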