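import Vale.Agent.P297Z.K.Proj
import Vale.Agent.P297Z.Top.Loc

/-!
# P297: products of varieties, projective spaces
-/

open scoped TensorProduct

noncomputable section

namespace Vale.Agent.P297Z

variable {X Y : Spc}

theorem Spc.IsVar.td_eq {n : ℕ} (h : X.IsVar n) : Dim.td ℂ X.R = n + Fintype.card X.J := by
  have := h.dom
  have h1 := h.dim
  rw [Dim.dim_eq_td (k := ℂ)] at h1
  exact_mod_cast h1

theorem Spc.nonempty_prod (hX : Nonempty X.Pt) (hY : Nonempty Y.Pt) : Nonempty (X.prod Y).Pt := by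
  obtain ⟨x⟩ := hX
  obtain ⟨y⟩ := hY
  exact ⟨⟨Algebra.TensorProduct.productMap x.1 y.1, (Spc.prod_pt X Y _).2 (by
    simpa using And.intro x.2 y.2)⟩⟩

theorem Spc.dom_prod (hX : IsDomain X.R) (hY : IsDomain Y.R) : IsDomain (X.prod Y).R :=
  Dim.isDomain_tensor (k := ℂ) (A := X.R) (B := Y.R)

theorem Spc.IsVar.prod {a b : ℕ} (hX : X.IsVar a) (hY : Y.IsVar b) :
    (X.prod Y).IsVar (a + b) := by
  have := hX.dom
  have := hY.dom
  have hd := Spc.dom_prod hX.dom hY.dom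
  refine ⟨hX.proj.prod hY.proj, hd, Spc.nonempty_prod hX.ne hY.ne, ?_⟩
  have h1 : Dim.td ℂ (X.prod Y).R = _ := Dim.td_tensor (k := ℂ) (A := X.R) (B := Y.R)
  have h2 : Fintype.card (X.prod Y).J = _ := Fintype.card_sum (α := X.J) (β := Y.J)
  rw [Dim.dim_eq_td (k := ℂ), h1, h2, hX.td_eq, hY.td_eq]
  congr 1
  ring

theorem Spc.nonempty_pt' (J : Type) [Fintype J] [DecidableEq J] : Nonempty (Spc.pt J).Pt :=
  ⟨⟨AlgHom.id ℂ ℂ, (1 : ℂ), trivial, one_ne_zero⟩⟩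

theorem isVar_pt0 : pt0.IsVar 0 :=
  ⟨Spc.isProj_pt, inferInstanceAs (IsDomain ℂ), Spc.nonempty_pt' _,
    (ringKrullDim_eq_zero_of_field ℂ).trans rfl⟩

theorem isVar_pow {S : Spc} {n : ℕ} (hS : S.IsVar n) : ∀ k, (S.pow k).IsVar (n * k)
  | 0 => isVar_pt0
  | k + 1 => (isVar_pow hS k).prod hS

theorem isVar_PP (v : ℕ) : (PP v).IsVar v := by
  have hd : IsDomain (PP v).R := inferInstanceAs (IsDomain (MvPolynomial (Fin (v + 1)) ℂ))
  refine ⟨Spc.isProj_pt.adj _, hd, ⟨⟨MvPolynomial.aeval (R := ℂ) fun _ : Fin (v + 1) => (1 : ℂ),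
    (Spc.adj_pt pt0 (Fin (v + 1)) _ _).2 ⟨⟨(1 : ℂ), trivial, ?_⟩, 0, ?_⟩⟩⟩, ?_⟩
  · exact fun h => one_ne_zero ((map_one _).symm.trans h)
  · have e := MvPolynomial.aeval_X (R := ℂ) (fun _ : Fin (v + 1) => (1 : ℂ)) 0
    exact fun h => one_ne_zero (e.symm.trans h)
  · have h1 := MvPolynomial.ringKrullDim_of_isNoetherianRing (R := ℂ) (ι := Fin (v + 1))
    rw [ringKrullDim_eq_zero_of_field, zero_add, Nat.card_eq_fintype_card, Fintype.card_fin] at h1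
    exact h1

theorem Spc.IsVar.conn {a : ℕ} (hX : X.IsVar a) : X.Conn :=
  have := hX.dom
  Spc.conn_of_domain

theorem Spc.IsVar.domT {a : ℕ} (hX : X.IsVar a) : IsDomain (X.prod ptT).R :=
  Spc.dom_prod hX.dom (inferInstanceAs (IsDomain ℂ))

theorem Spc.IsVar.connT {a : ℕ} (hX : X.IsVar a) : (X.prod ptT).Conn :=
  have := hX.domT
  Spc.conn_of_domain

theorem Spc.IsVar.neT {a : ℕ} (hX : X.IsVar a) : Nonempty (X.prod ptT).Pt :=
  Spc.nonempty_prod hX.ne (Spc.nonempty_pt' _)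

end Vale.Agent.P297Z
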