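import Vale.Agent.P297Z.K.AK
import Vale.Agent.P297Z.K.Cat
import Vale.Agent.P297Z.Top.Loc

/-!
# P297: leading parts of classes on `X × ptT`
-/

noncomputable section

namespace Vale.Agent.P297Z

open PowerSeries

variable {W V : Spc}

theorem FF_mul {a b : ℕ} {x y : K0 V} (hx : x ∈ FF V a) (hy : y ∈ FF V b) :
    x * y ∈ FF V (a + b) := fun W f hW d g hg => by
  rw [map_mul, kact_mul]
  refine hx W f hW d _ (hy W f hW (d + a) g ?_)
  rwa [add_assoc]

theorem one_mem_FF : (1 : K0 V) ∈ FF V 0 := fun W f _ d g hg => by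
  rwa [map_one, kact_one]

theorem FF_pull (f : Mor W V) {a : ℕ} {x : K0 V} (hx : x ∈ FF V a) : pullK f x ∈ FF W a :=
  fun U g hU d y hy => by
    rw [← pullK_comp]
    exact hx U _ hU d y hy

theorem tK_add (k l : ℤ) : tK V (k + l) = tK V k * tK V l := by
  rw [tK, tK, tK, ← map_mul, ← line_add]
  rfl

theorem tK_zero : tK V 0 = 1 := by
  rw [tK, show (fun _ => (0 : ℤ) : ptT.J → ℤ) = 0 from rfl, line_zero, map_one]

theorem tK_eq (k : ℤ) : tK V k = line (V.prod ptT) (Sum.elim 0 fun _ => k) := by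
  rw [tK, pullK_line]
  rfl

theorem rk_tK (k : ℤ) : rk _ (tK V k) = 1 := by rw [tK, rk_pullK, rk_line]

theorem dualK_tK (k : ℤ) : dualK _ (tK V k) = tK V (-k) := by
  rw [tK, tK, ← pullK_dualK, dualK_line]
  rfl

theorem pullK_tK (f : Mor W V) (k : ℤ) : pullK (f.map (Mor.id ptT)) (tK V k) = tK W k := by
  rw [tK, tK, ← pullK_comp, Mor.snd_map, Mor.id_comp]

theorem Deg_gen {m a b : ℕ} (k : ℤ) {y : K0 V} (h : m ≤ a + b) (hy : y ∈ FF V b) :
    tK V k * (1 - tK V 1) ^ a * pullK (Mor.fst V ptT) y ∈ Deg V m :=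
  AddSubgroup.subset_closure ⟨k, a, b, y, h, hy, rfl⟩

theorem Deg_gen' {m a b : ℕ} {y : K0 V} (h : m ≤ a + b) (hy : y ∈ FF V b) :
    (1 - tK V 1) ^ a * pullK (Mor.fst V ptT) y ∈ Deg V m := by
  have := Deg_gen 0 h hy
  rwa [tK_zero, one_mul] at this

theorem Deg_anti {m m' : ℕ} (h : m ≤ m') : Deg V m' ≤ Deg V m :=
  AddSubgroup.closure_mono fun _ ⟨k, a, b, y, h1, h2, h3⟩ => ⟨k, a, b, y, h.trans h1, h2, h3⟩

theorem Deg_mul {m m' : ℕ} {x y : K0 (V.prod ptT)} (hx : x ∈ Deg V m) (hy : y ∈ Deg V m') :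
    x * y ∈ Deg V (m + m') := by
  induction hx using AddSubgroup.closure_induction with
  | mem x hx =>
    obtain ⟨k, a, b, u, h1, h2, rfl⟩ := hx
    induction hy using AddSubgroup.closure_induction with
    | mem y hy =>
      obtain ⟨k', a', b', u', h1', h2', rfl⟩ := hy
      have := Deg_gen (m := m + m') (a := a + a') (k + k') (by omega) (FF_mul h2 h2')
      rw [tK_add, map_mul, pow_add] at this
      convert this using 1
      ring
    | zero => rw [mul_zero]; exact zero_mem _
    | add y z _ _ hy hz => rw [mul_add]; exact add_mem hy hz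
    | neg y _ hy => rw [mul_neg]; exact neg_mem hy
  | zero => rw [zero_mul]; exact zero_mem _
  | add y z _ _ hy hz => rw [add_mul]; exact add_mem hy hz
  | neg y _ hy => rw [neg_mul]; exact neg_mem hy

theorem conv_sum {A B : Type*} [CommRing A] [CommRing B] (φ : A →+* B) (u : B) (s s' : A⟦X⟧)
    (m m' : ℕ) (hs : ∀ b, m < b → coeff b s = 0) (hs' : ∀ b, m' < b → coeff b s' = 0) :
    (∑ b ∈ Finset.range (m + 1), u ^ (m - b) * φ (coeff b s)) *
      (∑ b ∈ Finset.range (m' + 1), u ^ (m' - b) * φ (coeff b s')) =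
    ∑ c ∈ Finset.range (m + m' + 1), u ^ (m + m' - c) * φ (coeff c (s * s')) := by
  rw [Finset.sum_mul_sum, ← Finset.sum_product']
  simp only [coeff_mul, map_sum, Finset.mul_sum]
  rw [Finset.sum_sigma']
  refine Finset.sum_of_injOn (fun p => (⟨p.1 + p.2, p⟩ : Σ _ : ℕ, ℕ × ℕ)) ?_ ?_ ?_ ?_
  · intro p _ q _ h
    exact eq_of_heq (Sigma.mk.inj h).2
  · intro p hp
    rw [Finset.mem_coe, Finset.mem_product, Finset.mem_range, Finset.mem_range] at hp
    simp only [Finset.mem_coe, Finset.mem_sigma, Finset.mem_range, Finset.HasAntidiagonal.mem_antidiagonal, and_true]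
    omega
  · rintro ⟨c, p⟩ hp hn
    simp only [Finset.mem_sigma, Finset.mem_range, Finset.HasAntidiagonal.mem_antidiagonal] at hp
    obtain ⟨h1, rfl⟩ := hp
    by_cases a1 : m < p.1
    · simp [hs _ a1]
    by_cases a2 : m' < p.2
    · simp [hs' _ a2]
    refine absurd ⟨p, ?_, rfl⟩ hn
    simp only [Finset.coe_product, Set.mem_prod, Finset.coe_range, Set.mem_Iio]
    omega
  · intro p hp
    rw [Finset.mem_product, Finset.mem_range, Finset.mem_range] at hp
    have e : m + m' - (p.1 + p.2) = (m - p.1) + (m' - p.2) := by omega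
    simp only [map_mul, e, pow_add]
    ring

namespace Lead

variable {m m' : ℕ} {x x' : K0 (V.prod ptT)} {s s' : (K0 V)⟦X⟧}

theorem sum_mem (h : Lead V m x s) : ∑ b ∈ Finset.range (m + 1),
    (1 - tK V 1) ^ (m - b) * pullK (Mor.fst V ptT) (coeff b s) ∈ Deg V m :=
  _root_.sum_mem fun b _ => Deg_gen' (by omega) (h.1 b)

theorem mem (h : Lead V m x s) : x ∈ Deg V m := by
  have := add_mem (Deg_anti (Nat.le_succ m) h.2.2) h.sum_mem
  rwa [sub_add_cancel] at this

theorem mul (h : Lead V m x s) (h' : Lead V m' x' s') : Lead V (m + m') (x * x') (s * s') := by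
  refine ⟨fun b => ?_, fun b hb => ?_, ?_⟩
  · rw [coeff_mul]
    refine _root_.sum_mem fun p hp => ?_
    rw [← Finset.HasAntidiagonal.mem_antidiagonal.1 hp]
    exact FF_mul (h.1 _) (h'.1 _)
  · rw [coeff_mul]
    refine Finset.sum_eq_zero fun p hp => ?_
    have := Finset.HasAntidiagonal.mem_antidiagonal.1 hp
    by_cases a1 : m < p.1
    · rw [h.2.1 _ a1, zero_mul]
    · rw [h'.2.1 _ (by omega), mul_zero]
  · rw [← conv_sum _ _ _ _ _ _ h.2.1 h'.2.1]
    have a1 := Deg_mul h.2.2 h'.mem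
    have a2 := Deg_mul h.sum_mem h'.2.2
    rw [add_right_comm] at a1
    convert add_mem a1 a2 using 1
    ring

theorem one : Lead V 0 1 1 := by
  refine ⟨fun b => ?_, fun b hb => ?_, ?_⟩
  · rw [coeff_one]
    split_ifs with hb
    · rw [hb]; exact one_mem_FF
    · exact zero_mem _
  · rw [coeff_one, if_neg hb.ne']
  · simp

theorem prod {ι : Type} [Fintype ι] (m : ℕ) (x : ι → K0 (V.prod ptT)) (s : ι → (K0 V)⟦X⟧)
    (h : ∀ i, Lead V m (x i) (s i)) :
    Lead V (Fintype.card ι * m) (∏ i, x i) (∏ i, s i) := by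
  classical
  have : ∀ t : Finset ι, Lead V (t.card * m) (∏ i ∈ t, x i) (∏ i ∈ t, s i) := by
    intro t
    induction t using Finset.induction_on with
    | empty => simpa using one
    | insert a t ha ih =>
      rw [Finset.card_insert_of_notMem ha, Finset.prod_insert ha, Finset.prod_insert ha,
        add_mul, one_mul, add_comm]
      exact (h a).mul ih
  exact this Finset.univ

theorem of_FF' {b : ℕ} {w : K0 V} (hw : w ∈ FF V b) :
    Lead V b (pullK (Mor.fst V ptT) w) (C w * X ^ b) := by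
  have e : ∀ c, coeff c (C w * X ^ b : (K0 V)⟦X⟧) = if c = b then w else 0 := by
    intro c
    rw [coeff_C_mul, coeff_X_pow]
    split_ifs <;> simp
  refine ⟨fun c => ?_, fun c hc => ?_, ?_⟩
  · rw [e]
    split_ifs with hc
    · rwa [hc]
    · exact zero_mem _
  · rw [e, if_neg hc.ne']
  · rw [Finset.sum_eq_single b (fun c _ hc => by rw [e, if_neg hc, map_zero, mul_zero])
      (fun h => absurd (Finset.self_mem_range_succ b) h), e, if_pos rfl, Nat.sub_self, pow_zero,
      one_mul, sub_self]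
    exact zero_mem _

theorem neg (h : Lead V m x s) : Lead V m (-x) (-s) := by
  refine ⟨fun b => ?_, fun b hb => ?_, ?_⟩
  · rw [map_neg]; exact neg_mem (h.1 b)
  · rw [map_neg, h.2.1 b hb, neg_zero]
  · have := neg_mem h.2.2
    simp only [map_neg, mul_neg, Finset.sum_neg_distrib]
    convert this using 1
    ring

theorem one_sub : Lead V 1 (1 - tK V 1) 1 := by
  refine ⟨one.1, fun b hb => one.2.1 b (by omega), ?_⟩
  simp [Finset.sum_range_succ, coeff_one]

theorem one_sub_pow (a : ℕ) : Lead V a ((1 - tK V 1) ^ a) 1 := by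
  induction a with
  | zero => simpa using one
  | succ a ih => simpa [pow_succ] using ih.mul one_sub

theorem tK (k : ℤ) : Lead V 0 (tK V k) 1 := by
  refine ⟨one.1, one.2.1, ?_⟩
  have key : ∀ k : ℤ, P297Z.tK V k - P297Z.tK V (k + 1) ∈ Deg V 1 := fun k => by
    have := Deg_gen (m := 1) (a := 1) k le_rfl (one_mem_FF (V := V))
    rw [map_one, mul_one, pow_one, mul_sub, mul_one, ← tK_add] at this
    exact this
  have : P297Z.tK V k - 1 ∈ Deg V 1 := by
    induction k using Int.induction_on with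
    | zero => rw [tK_zero, sub_self]; exact zero_mem _
    | succ k ih =>
      have := sub_mem ih (key k)
      convert this using 1
      ring
    | pred k ih =>
      have := add_mem ih (key (-k - 1))
      rw [sub_add_cancel] at this
      convert this using 1
      ring
  simpa using this

theorem of_FF {w : K0 V} (hw : w ∈ FF V 1) : Lead V 1 (pullK (Mor.fst V ptT) w) (C w * X) := by
  have e : ∀ b, coeff b (C w * X : (K0 V)⟦X⟧) = if b = 1 then w else 0 := by
    intro b
    rw [coeff_C_mul, coeff_X]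
    split_ifs <;> simp
  refine ⟨fun b => ?_, fun b hb => ?_, ?_⟩
  · rw [e]
    split_ifs with hb
    · rwa [hb]
    · exact zero_mem _
  · rw [e, if_neg hb.ne']
  · simp [Finset.sum_range_succ, e]

end Lead

end Vale.Agent.P297Z
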