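import Vale.Agent.P297Z.Top.Stage
import Vale.Agent.P297Z.Num.Count2

/-!
# P297: the first stage for all surfaces with `p_g = q = 0`
-/

noncomputable section

namespace Vale.Agent.P297Z

namespace Num

variable {Λ Cv : Type} [AddCommGroup Λ] {S : Surf Λ Cv} {r : ℕ} (c : S.Cf r)

/-- the isotropic linear forms -/
def Surf.Cf.al (l : HL) (D : Λ) : ℂ := ∑ i, ha l i * S.B (c.E (.inl i)) D

theorem Surf.Cf.Y_K (i : Fin 5) : S.B (c.E (.inl i)) S.K = -1 := by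
  rw [S.symm, c.K_mul, c.uY, S.symm, mul_zero, zero_add]
  exact c.mY_X i

theorem Surf.Cf.Y_be (i : Fin 5) : S.B (c.E (.inl i)) c.be = -1 := by
  rw [S.symm, c.be_mul, c.uY, S.symm, mul_zero, zero_add]
  exact c.mY_bt i

theorem Surf.Cf.u_uu : S.B c.u c.uu = 0 := by
  rw [Surf.Cf.uu, map_sub, c.u0, c.u1, sub_zero]

theorem Surf.Cf.uu_K : S.B c.uu S.K = 0 := by
  rw [S.symm, c.K_mul, c.u_uu, S.symm, c.uu_mul, c.mA_X, c.mA_X]
  rfl

theorem Surf.Cf.uu_la : S.B c.uu c.la = 0 := by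
  rw [c.uu_mul, c.mA_la, c.mA_la, sub_zero]

theorem Surf.Cf.uu_be : S.B c.uu c.be = 0 := by
  rw [S.symm, c.be_mul, c.u_uu, S.symm, c.uu_mul, c.mA_bt, c.mA_bt]
  rfl

theorem Surf.Cf.uu_uu : S.B c.uu c.uu = -2 := by
  rw [c.uu_mul, Surf.Cf.uu, Surf.Cf.mA, Surf.Cf.mA, map_sub, map_sub]
  simp [c.orth]

theorem Surf.Cf.Y_uu (i : Fin 5) : S.B (c.E (.inl i)) c.uu = 0 := by
  rw [S.symm, c.uu_mul, c.mA_l, c.mA_l, sub_zero]

/-- The numerical theorem. -/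
theorem num2 (I : Type) [Fintype I] (D₁ D₂ : I → Λ) (n₁ n₂ : I → ℕ) (Lin : AddSubgroup Λ)
    (hL : ∀ x ∈ Lin, ∀ y, S.B x y = 0)
    (hv : ∀ i, S.Sec (D₁ i) ∧ S.Sec (D₂ i) ∧ (∀ x, S.B (D₁ i + D₂ i) x = S.B c.be x) ∧
      (n₁ i + n₂ i : ℤ) = c.cc + S.B (c.la - D₁ i) (D₂ i))
    (hu : ∀ i j, D₁ i - D₁ j ∈ Lin → D₂ i - D₂ j ∈ Lin → n₁ i = n₁ j → i = j)
    (he : ∀ (D D' : Λ) (a b : ℕ), S.Sec D → S.Sec D' → (∀ x, S.B (D + D') x = S.B c.be x) →
      (a + b : ℤ) = c.cc + S.B (c.la - D) D' → ∃ i, D₁ i - D ∈ Lin ∧ D₂ i - D' ∈ Lin ∧ n₁ i = a)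
    (N M : I → ℂ) (kap : ℂ) (hk : kap ≠ 0)
    (rel : ∀ l, ∑ i, c.al l (D₁ i) ^ 12 * (N i * (-2) + M i * (S.B c.uu (D₁ i) : ℂ) ^ 2) = 0)
    (van : ∀ i, Eval.chiN S.B S.K (D₁ i) ≤ 0 ∨ Eval.chiN S.B S.K (D₂ i) ≤ 0 → N i = 0 ∧ M i = 0)
    (ev : ∀ i, n₁ i + n₂ i ≤ 1 → 1 ≤ Eval.chiN S.B S.K (D₁ i) → 1 ≤ Eval.chiN S.B S.K (D₂ i) →
      Eval.chiN S.B S.K (D₁ i) + Eval.chiN S.B S.K (D₂ i) ≤ 3 →
      M i = kap * Eval.Mf S.B S.K c.la (D₁ i) (D₂ i) (n₁ i) (n₂ i)) :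
    ∑ l, Num.hc l * ∑ i, c.al l (D₁ i) ^ 12 * N i ≠ 0 := by
  have e1 : ∀ D D' x : Λ, S.B (D + c.u + (D' + c.u)) x = S.B c.be x ↔
      S.B (D + D') x = S.B c.bt x := fun D D' x => by
    simp only [c.be_mul, map_add, AddMonoidHom.add_apply]
    omega
  have h1 := count2 c (fun i => D₁ i - c.u) (fun i => D₂ i - c.u) n₁ n₂ Lin hL
    (fun i => by
      simp only [← e1, sub_add_cancel]
      exact hv i)
    (fun i j => by
      simp only [sub_sub_sub_cancel_right]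
      exact hu i j)
    (fun D D' a b h1 h2 h3 h4 => by
      simp only [sub_sub, add_comm c.u]
      exact he _ _ a b h1 h2 (fun x => (e1 _ _ x).2 (h3 x)) h4)
    M kap hk (fun i => by
      simp only [sub_add_cancel]
      exact fun h => (van i h).2)
    (fun i => by
      simp only [sub_add_cancel]
      exact ev i)
  simp only [c.mY_sub, c.uu_sub] at h1
  exact main2 c D₁ N M rel h1

end Num

namespace Sf

variable {K : Type} [Field K] [Algebra ℂ K]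

/-- The case of a ruled surface. -/
def RUL : Prop := ForAll fun S => S.All → S.Good → ∀ D : Div S.W,
  (∀ C : Crv S.W, 0 ≤ inter D (Finsupp.single C 1)) → 0 ≤ inter D D →
  inter D D + inter S.kap D = -2 → ∀ c : Pt S.W → ℂ, RatOK c → ∀ p q, c p = c q

theorem stage2 (hMOD : MOD) (hSH : SHAPE) (hVAN : VAN) (hEV : EV) (hKILL : KILL) (hTAU : TAU)
    (hPTS : PTS) (hRUL : RUL) : STAGE1 := by
  intro K _ _ S h hG hK c hc p q
  classical
  set T := numSurf S h hG with hT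
  by_cases hR : T.Ruled
  · obtain ⟨D, h1, h2, h3⟩ := hR
    exact hRUL K S h hG D h1 h2 h3 c hc p q
  obtain ⟨r, ⟨cf⟩⟩ := Num.Surf.exists_cf hR hK
  have hB : ∀ x y, T.B x y = inter x y := fun _ _ => rfl
  have hvd : 2 * cf.cc + inter cf.la cf.be - inter S.kap cf.be = 16 := cf.vd
  obtain ⟨ι, _, D₁, D₂, n₁, n₂, T₁, T₂, hloc, huniq, hrel⟩ :=
    hMOD K S h hG (cech_zero h hG) cf.la cf.be cf.cc 12 (by rw [hvd]; norm_num)
  obtain ⟨kap, hkap, hev⟩ := hEV K S h hG cf.la cf.be cf.cc hvd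
  obtain ⟨τ, hτ⟩ := hTAU K S h c hc
  obtain ⟨hpt, hrk⟩ := hPTS K S h
  obtain ⟨z, hz⟩ := hpt p
  obtain ⟨z', hz'⟩ := hpt q
  have hex : ∀ i, ∃ N M : ℂ, S.Shape h (T₁ i) (T₂ i) 12 N M ∧
      (chi (D₁ i) ≤ 0 ∨ chi (D₂ i) ≤ 0 → N = 0 ∧ M = 0) ∧
      (n₁ i + n₂ i ≤ 1 → 1 ≤ chi (D₁ i) → 1 ≤ chi (D₂ i) → chi (D₁ i) + chi (D₂ i) ≤ 3 →
        M = kap * Eval.Mf T.B S.kap cf.la (D₁ i) (D₂ i) (n₁ i) (n₂ i)) := by
    intro i
    by_cases h1 : chi (D₁ i) ≤ 0 ∨ chi (D₂ i) ≤ 0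
    · refine ⟨0, 0, hVAN K S h hG _ _ _ _ _ _ _ 12 (hloc i).eff₁ (hloc i).eff₂ h1,
        fun _ => ⟨rfl, rfl⟩, fun _ h2 h3 _ => ?_⟩
      omega
    by_cases h2 : n₁ i + n₂ i ≤ 1 ∧ chi (D₁ i) + chi (D₂ i) ≤ 3
    · obtain ⟨N, hN⟩ := hev _ _ _ _ (T₁ i) (T₂ i) (hloc i) h2.1 (by omega) (by omega) h2.2
      exact ⟨N, _, hN, fun h3 => absurd h3 h1, fun _ _ _ _ => rfl⟩
    · obtain ⟨N, M, hN⟩ := hSH K S h hG _ _ _ _ _ (T₁ i) (T₂ i) 12 (hloc i).eff₁ (hloc i).eff₂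
      exact ⟨N, M, hN, fun h3 => absurd h3 h1, fun h3 _ _ h4 => absurd ⟨h3, h4⟩ h2⟩
  choose N M hsh hvan hevM using hex
  have hsym : ∀ x y : Div S.W, inter x y = inter y x := fun x y => T.symm x y
  have hcond : ∀ i l, _ := fun i l => hsh i (Fin 5) (Num.ha l) (fun a => cf.E (.inl a))
    (by
      have : ∀ a b : Fin 5, Num.ha l a * Num.ha l b * (inter (cf.E (.inl a)) (cf.E (.inl b)) : ℂ) =
          if a = b then -(Num.ha l a * Num.ha l a) else 0 := by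
        intro a b
        rw [← hB, cf.orth]
        by_cases hab : a = b
        · subst hab
          simp
        · simp [hab]
      simp only [this, Finset.sum_ite_eq, Finset.mem_univ, if_true, Finset.sum_neg_distrib,
        Num.ha_sq, neg_zero])
    (by
      have : ∀ a : Fin 5, inter (cf.E (.inl a)) S.kap = -1 := cf.Y_K
      simp only [this, ← Finset.sum_mul, Num.ha_sum, zero_mul])
    (by
      have : ∀ a : Fin 5, inter (cf.E (.inl a)) cf.la = 1 := cf.mY_la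
      simp only [this, ← Finset.sum_mul, Num.ha_sum, zero_mul])
    (by
      have : ∀ a : Fin 5, inter (cf.E (.inl a)) (D₁ i + D₂ i) = -1 := fun a => by
        rw [hsym, (hloc i).sum, hsym]
        exact cf.Y_be a
      simp only [this, ← Finset.sum_mul, Num.ha_sum, zero_mul])
  have hw : ∀ (f : Fin 12 → Fin 5) (j : Fin 12), rk _ (S.lK h (cf.E (.inl (f j))) - 1) = 0 := by
    intro f j
    rw [map_sub, hrk, map_one, sub_self]
  have hne := Num.num2 cf ι D₁ D₂ n₁ n₂ (prin S h)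
    (by
      rintro _ ⟨g, hg, rfl⟩ y
      rw [hB, inter, add_comm _ y, h.lin _ _ hg]
      have := h.lin 0 g hg
      rw [zero_add] at this
      rw [this]
      ring)
    (fun i => ⟨(hloc i).eff₁, (hloc i).eff₂, (hloc i).sum, (hloc i).num⟩)
    (by
      intro i j h1 h2 h3
      obtain ⟨i₀, -, hi⟩ := huniq _ _ _ _ (hloc j)
      have e2 : n₂ j = n₂ i := by
        have a1 := (hloc i).num
        have a2 := (hloc j).num
        obtain ⟨g, hg, e1⟩ := (lin_iff S h _ _).2 h1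
        obtain ⟨g', hg', e2⟩ := (lin_iff S h _ _).2 h2
        have a3 : ∀ y, T.B (div S.W g) y = 0 := fun y => by
          rw [hB, inter, add_comm _ y, h.lin _ _ hg]
          have := h.lin 0 g hg
          rw [zero_add] at this
          rw [this]
          ring
        have a4 : ∀ y, T.B y (div S.W g') = 0 := fun y => by
          rw [hB, inter, h.lin _ _ hg']
          have := h.lin 0 g' hg'
          rw [zero_add] at this
          rw [this]
          ring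
        rw [← hB] at a1 a2
        rw [e1, e2, ← sub_sub, map_sub, AddMonoidHom.sub_apply, a3, map_add, a4] at a1
        omega
      rw [hi i ⟨(lin_iff S h _ _).2 h1, (lin_iff S h _ _).2 h2, h3.symm, e2⟩,
        hi j ⟨(lin_iff S h _ _).2 (by simp), (lin_iff S h _ _).2 (by simp), rfl, rfl⟩])
    (by
      intro D D' a b h1 h2 h3 h4
      obtain ⟨i, hi, -⟩ := huniq D D' a b ⟨h1, h2, h3, h4⟩
      exact ⟨i, (lin_iff S h _ _).1 hi.1, (lin_iff S h _ _).1 hi.2.1, hi.2.2.1.symm⟩)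
    N M kap hkap
    (by
      intro l
      have h0 := gamF_sum 12 (Num.ha l)
        (fun i f => Gam (T₁ i) (T₂ i) 12 fun j => S.lK h (cf.E (.inl (f j))) - 1)
        (Psi _ (S.lK h cf.uu - 1)) fun f => (hKILL K S h _ (hrel _ (hw f))).2 _
      rw [← h0]
      refine Finset.sum_congr rfl fun i _ => ?_
      have h1 := (hcond i l).2 cf.uu
        cf.uu_K
        cf.uu_la
        (by rw [hsym, (hloc i).sum, hsym]; exact cf.uu_be)
        (by simp only [← hB, cf.Y_uu]; simp)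
      have h2 : inter cf.uu cf.uu = -2 := cf.uu_uu
      rw [h2] at h1
      exact (h1.trans (by push_cast; rfl)).symm)
    (fun i hi => hvan i (by rwa [← chiN_eq S h hG, ← chiN_eq S h hG]))
    (fun i a1 a2 a3 a4 => hevM i a1 (by rwa [← chiN_eq S h hG]) (by rwa [← chiN_eq S h hG])
      (by rwa [← chiN_eq S h hG, ← chiN_eq S h hG]))
  have hfin : (∑ l, Num.hc l * ∑ i, cf.al l (D₁ i) ^ 12 * N i) * (c p - c q) = 0 := by
    rw [Finset.sum_mul]
    refine Finset.sum_eq_zero fun l _ => ?_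
    have h0 := gamF_sum 12 (Num.ha l)
      (fun i f => Gam (T₁ i) (T₂ i) 12 fun j => S.lK h (cf.E (.inl (f j))) - 1)
      (Phi _ τ z z') fun f => (hKILL K S h _ (hrel _ (hw f))).1 _ _ _
    rw [mul_assoc, Finset.sum_mul]
    refine mul_eq_zero_of_right _ ?_
    rw [← h0]
    refine Finset.sum_congr rfl fun i _ => ?_
    have h1 := (hcond i l).1 τ p q z z' hz hz'
    rw [hτ, hτ] at h1
    rw [mul_assoc]
    exact h1.symm
  exact sub_eq_zero.1 ((mul_eq_zero.1 hfin).resolve_left hne)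

end Sf

end Vale.Agent.P297Z
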