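import Vale.Agent.P297Z.Top.Glue2
import Vale.Agent.P297Z.Surf.SspA2
import Vale.Agent.P297Z.Surf.SspB
import Vale.Agent.P297Z.Surf.NumI

/-!
# P297: the relation from the localisation theorem and the description of the fixed loci
-/

noncomputable section

namespace Vale.Agent.P297Z.Sf

open Gl

variable {K : Type} [Field K] [Algebra ℂ K] {S : Surf K}

theorem h0_pos (h : S.All) {D : Div S.W} (hD : H0 D ≠ ⊥) : 1 ≤ h0 D := by
  have : FiniteDimensional ℂ (H0 D) := by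
    have := (h.fg D).1 0
    rwa [M, zero_smul, add_zero] at this
  have h1 : Module.finrank ℂ (H0 D) ≠ 0 := fun e => hD (Submodule.finrank_eq_zero.1 e)
  rw [h0]
  omega

theorem H0_kap_sub (hG : S.Good) {D : Div S.W} (hD : H0 D ≠ ⊥) : H0 (S.kap - D) = ⊥ := by
  obtain ⟨f, hf, h0⟩ := (Submodule.ne_bot_iff _).1 hD
  refine (Submodule.eq_bot_iff _).2 fun g hg => ?_
  have : g * f ∈ H0 (S.kap - D + D) := mul_mem_secOn hg hf
  rw [sub_add_cancel, hG.pg, Submodule.mem_bot] at this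
  exact (mul_eq_zero.1 this).resolve_right h0

theorem chi_le_h0 (h : S.All) (hG : S.Good) {D : Div S.W} (hD : H0 D ≠ ⊥) : chi D ≤ h0 D := by
  have := h.le D
  rwa [h0_bot (H0_kap_sub hG hD), add_zero] at this

theorem chiG_hom (h : S.All) (A B : Div S.W) :
    chiG _ (kact _ (dualK _ (S.lK h A) * S.lK h B) (oG _)) = chi (B - A) := by
  rw [← Sl.lK_neg, ← Sl.lK_add, Sl.chiG_lK, neg_add_eq_sub]

theorem rk_bP_eq (h : S.All) (hD : DRk (S.spc h)) {lam D₁ D₂ : Div S.W} {n₁ n₂ : ℕ}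
    (T₁ : S.Tw h lam D₁ n₁) (T₂ : S.Tw h 0 D₂ n₂) :
    rk _ (bP T₁ T₂) = chi (lam - D₁ + D₂) - chi (lam + D₂) - n₁ := by
  rw [rk_bP T₁ T₂ (SA.isProj h) hD (Sl.rk_lK S h _), chiG_hom, chiG_hom, zero_sub, sub_neg_eq_add,
    sub_neg_eq_add]

theorem rk_bM_eq (h : S.All) (hD : DRk (S.spc h)) {lam D₁ D₂ : Div S.W} {n₁ n₂ : ℕ}
    (T₁ : S.Tw h lam D₁ n₁) (T₂ : S.Tw h 0 D₂ n₂) :
    rk _ (bM T₁ T₂) = chi (D₁ - lam - D₂) - chi (D₁ - lam) - n₂ := by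
  rw [rk_bM T₁ T₂ (SA.isProj h) hD (Sl.rk_lK S h _), chiG_hom, chiG_hom,
    show 0 - D₂ - (lam - D₁) = D₁ - lam - D₂ by abel, show 0 - (lam - D₁) = D₁ - lam by abel]

theorem vd_num (h : S.All) (hG : S.Good) {lam β D₁ D₂ : Div S.W} {c : ℤ} {n₁ n₂ : ℕ}
    (hl : IsLocus lam β c D₁ D₂ n₁ n₂) :
    chi D₁ + chi D₂ - 2 + n₁ + n₂ - (chi (lam - D₁ + D₂) - chi (lam + D₂) - n₁) -
      (chi (D₁ - lam - D₂) - chi (D₁ - lam) - n₂) = 2 * c + inter lam β - inter S.kap β := by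
  have a1 := h.rr D₁
  have a2 := h.rr D₂
  have a3 := h.rr (lam - D₁ + D₂)
  have a4 := h.rr (lam + D₂)
  have a5 := h.rr (D₁ - lam - D₂)
  have a6 := h.rr (D₁ - lam)
  have a7 := hl.num
  have a8 := hl.sum lam
  have a9 := hl.sum S.kap
  rw [inter_comm β] at a8 a9
  rw [inter_comm (D₁ + D₂)] at a8 a9
  have s1 := inter_comm D₁ D₂
  have s2 := inter_comm D₁ lam
  have s3 := inter_comm D₂ lam
  rw [hG.chi_zero] at a1 a2 a3 a4 a5 a6
  rw [← a8, ← a9]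
  simp only [← interHom_apply h.toRR, map_add, map_sub, AddMonoidHom.add_apply,
    AddMonoidHom.sub_apply] at *
  omega

theorem mod_of (hLOC : LOC) (hFIX : FIXD) (hD : ForAll fun S => ∀ h : S.All, DRk (S.spc h)) :
    MOD := by
  intro K _ _ S h hG hC lam β c k hk
  obtain ⟨κ, _, D₁, D₂, n₁, n₂, T₁, T₂, hloc, huniq, hex⟩ := hFIX K S h hG hC lam β c
  refine ⟨κ, inferInstance, D₁, D₂, n₁, n₂, T₁, T₂, hloc, huniq, fun w hw => ?_⟩
  rcases isEmpty_or_nonempty κ with he | hne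
  · rw [Finset.univ_eq_empty, Finset.sum_empty]
    exact zero_mem _
  obtain ⟨ι, _, _, d, O, E, F, cov, dis⟩ := hex hne
  obtain ⟨i⟩ := hne
  refine glue hLOC (SA.isVar h) T₁ T₂ O E F cov dis k ?_ w hw
  have a1 := vd_eq (F i)
  have a2 := vd_num h hG (hloc i)
  have a3 := h0_pos h (hloc i).eff₁
  have a4 := h0_pos h (hloc i).eff₂
  have a5 := chi_le_h0 h hG (hloc i).eff₁
  have a6 := chi_le_h0 h hG (hloc i).eff₂
  rw [rk_Ob (F i), rk_bP_eq h (hD K S h), rk_bM_eq h (hD K S h)] at a1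
  omega

end Vale.Agent.P297Z.Sf
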