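import Vale.Agent.P297Z.Top.Glue1

/-!
# P297: the relation between the contributions of the fixed loci
-/

noncomputable section

namespace Vale.Agent.P297Z.Gl

open PowerSeries

variable {V W Q S : Spc}

theorem cc_top_add {a b : K0 V} {r s : ℕ} (ha : IsCls a r) (hb : IsCls b s) :
    cc (r + s) (a + b) = cc r a * cc s b := by
  obtain ⟨A, rfl, rfl⟩ := ha
  obtain ⟨B, rfl, rfl⟩ := hb
  have := congrArg (coeff (A.rk + B.rk)) (cT_add A.cls B.cls)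
  rw [coeff_mul, Finset.sum_eq_single (A.rk, B.rk)] at this
  · simpa only [cT, coeff_mk] using this
  · intro p hp hne
    have h1 := Finset.HasAntidiagonal.mem_antidiagonal.1 hp
    simp only [cT, coeff_mk]
    by_cases h2 : A.rk < p.1
    · rw [cc_gt ⟨A, rfl, rfl⟩ h2, zero_mul]
    · rw [cc_gt ⟨B, rfl, rfl⟩ (i := p.2) ?_, mul_zero]
      by_contra h3
      exact hne (Prod.ext (by simp only; omega) (by simp only; omega))
  · intro h
    exact (h (Finset.HasAntidiagonal.mem_antidiagonal.2 rfl)).elim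

theorem isCls_pull {a : K0 V} {r : ℕ} (h : IsCls a r) (f : Mor W V) : IsCls (pullK f a) r := by
  obtain ⟨B, rfl, rfl⟩ := h
  exact ⟨⟨f.pull B.M, B.rk, B.free.pull f⟩, rfl, by rw [pullK_cls, kc_eq]⟩

/-- the space of the slots -/
abbrev Sl (S : Spc) (k : ℕ) : Spc := (S.pow k).prod (S.prod S)

/-- the slots -/
def Sl.sl (S : Spc) (k : ℕ) : Fin k ⊕ Bool → Mor (Sl S k) S
  | .inl i => (slot S k i).comp (Mor.fst _ _)
  | .inr false => (Mor.fst _ _).comp (Mor.snd _ _)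
  | .inr true => (Mor.snd _ _).comp (Mor.snd _ _)

/-- a class put at a slot -/
def Sl.at (k : ℕ) (i : Fin k ⊕ Bool) (E : K0 (V.prod S)) : K0 (V.prod (Sl S k)) :=
  pullK ((Mor.id V).map (Sl.sl S k i)) E

theorem sl_assoc (k : ℕ) (i : Fin k ⊕ Bool) :
    ((Sl.sl S k i).comp (Mor.snd V _)).comp (Mor.assoc V _ _) = Wk.sl V S k i := by
  rw [Mor.comp_assoc, Mor.assoc, Mor.snd_lift]
  rcases i with i | _ | _ <;> simp only [Sl.sl, Wk.sl, Mor.comp_assoc, Mor.fst_lift, Mor.snd_lift]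

theorem at_assoc (k : ℕ) (i : Fin k ⊕ Bool) (E : K0 (V.prod S)) :
    pullK (Mor.assoc V _ _) (Sl.at k i E) = Wk.at k i E := by
  rw [Sl.at, ← pullK_comp, Mor.map, Mor.lift_comp, sl_assoc, Mor.id_comp, Mor.assoc, Mor.fst_lift]
  rfl

theorem at_mid (k : ℕ) (i : Fin k ⊕ Bool) (j : Mor (V.prod ptT) Q) (E : K0 (Q.prod S))
    (a b : K0 (V.prod S)) (h : pullK (j.map (Mor.id S)) E = tSum a b) :
    pullK (j.mid (Sl S k)) (Sl.at k i E) =
      pullK (Mor.fst _ ptT) (Sl.at k i a) + tK _ 1 * pullK (Mor.fst _ ptT) (Sl.at k i b) := by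
  let μ : Mor ((V.prod (Sl S k)).prod ptT) ((V.prod ptT).prod S) :=
    Mor.lift ((Mor.fst V _).map (Mor.id ptT)) ((Sl.sl S k i).comp ((Mor.snd V _).comp (Mor.fst _ _)))
  have e1 : ((Mor.id Q).map (Sl.sl S k i)).comp (j.mid (Sl S k)) = (j.map (Mor.id S)).comp μ := by
    rw [Mor.mid, Mor.map_lift, Mor.map_lift, Mor.id_comp, Mor.id_comp]
  have e2 : ((Mor.fst V ptT).map (Mor.id S)).comp μ =
      ((Mor.id V).map (Sl.sl S k i)).comp (Mor.fst _ _) := by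
    rw [Mor.map_lift, Mor.fst_map, Mor.id_comp, Mor.map, Mor.lift_comp, Mor.id_comp,
      Mor.comp_assoc]
  rw [Sl.at, ← pullK_comp, e1, pullK_comp, h, tSum, map_add, map_mul, ← pullK_comp, ← pullK_comp,
    ← pullK_comp, e2, Mor.fst_lift, pullK_tK, pullK_comp, pullK_comp]
  rfl

/-- the insertion -/
def ins (k : ℕ) (E : K0 (Q.prod S)) (w : Fin k → K0 S) : K0 (Q.prod (Sl S k)) :=
  (∏ i, cc 2 (Sl.at k i E)) * ∏ i, pullK ((Sl.sl S k (.inl i)).comp (Mor.snd _ _)) (w i)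

/-- the leading part of the insertion -/
def insL (k : ℕ) (a b : K0 (V.prod S)) (w : Fin k → K0 S) : (K0 (V.prod (Sl S k)))⟦X⟧ :=
  (∏ i, kappa (Sl.at k i a) (Sl.at k i b)) *
    ∏ i, (C (pullK ((Sl.sl S k (.inl i)).comp (Mor.snd _ _)) (w i)) * X)

theorem lead_ins (k : ℕ) (j : Mor (V.prod ptT) Q) (E : K0 (Q.prod S)) (a b : K0 (V.prod S))
    (h : pullK (j.map (Mor.id S)) E = tSum a b) (hb : rk _ b = 1) (w : Fin k → K0 S)
    (hw : ∀ i, rk S (w i) = 0) :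
    Lead _ (3 * k + 4) (pullK (j.mid (Sl S k)) (ins k E w)) (insL k a b w) := by
  have h1 := Lead.prod 2 _ _ fun i : Fin k ⊕ Bool =>
    lead_kappa (Sl.at k i a) (Sl.at k i b) (by rw [Sl.at, rk_pullK, hb])
  have h2 := Lead.prod 1 _ _ fun i : Fin k => Lead.of_FF
    (FF_pull ((Sl.sl S k (.inl i)).comp (Mor.snd V _)) (mem_FF_one (hw i)))
  have h3 := h1.mul h2
  have e : Fintype.card (Fin k ⊕ Bool) * 2 + Fintype.card (Fin k) * 1 = 3 * k + 4 := by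
    simp only [Fintype.card_sum, Fintype.card_fin, Fintype.card_bool]
    ring
  rw [e] at h3
  rw [ins, insL, map_mul, map_prod, map_prod]
  convert h3 using 3 with i _ i
  · rw [cc_pull, at_mid k i j E a b h]
  · rw [← pullK_comp, ← pullK_comp, Mor.comp_assoc, Mor.mid, Mor.snd_lift, Mor.comp_assoc]

theorem map_insL (k : ℕ) (a b : K0 (V.prod S)) (w : Fin k → K0 S) :
    map (pullK (Mor.assoc V _ _)) (insL k a b w) =
      (∏ i, kappa (Wk.at k i a) (Wk.at k i b)) *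
        ∏ i, (C (pullK (Wk.sl V S k (.inl i)) (w i)) * X) := by
  simp only [insL, map_mul, map_prod, map_kappa, at_assoc, map_C, map_X, ← pullK_comp, sl_assoc]

theorem fstar_Wk {e : ℕ} (hV : V.IsVar e) (hS : S.IsVar 2) (k n : ℕ) (c : (K0 V)⟦X⟧)
    (a b : K0 (V.prod S)) (w : Fin k → K0 S) :
    fstar (Mor.snd _ _ : Mor (Wk V S k) _) (kact _ (coeff n (map (pullK (Wk.base V S k)) c *
      (∏ i, kappa (Wk.at k i a) (Wk.at k i b)) *
        ∏ i, (C (pullK (Wk.sl V S k (.inl i)) (w i)) * X))) (oG _)) =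
    fstar ((Mor.snd _ _).comp (Mor.snd V (Sl S k)))
      (kact _ (coeff n (map (pullK (Mor.fst V (Sl S k))) c * insL k a b w)) (oG _)) := by
  have p1 := ((hV.prod (isVar_pow hS k)).prod (hS.prod hS)).proj
  have p2 := (hV.prod ((isVar_pow hS k).prod (hS.prod hS))).proj
  have e1 : (Mor.snd _ _ : Mor (Wk V S k) _) =
      ((Mor.snd _ _).comp (Mor.snd V (Sl S k))).comp (Mor.assoc V _ _) := by
    rw [Mor.comp_assoc, Mor.assoc, Mor.snd_lift, Mor.snd_lift]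
  have e2 : map (pullK (Wk.base V S k)) c =
      map (pullK (Mor.assoc V _ _)) (map (pullK (Mor.fst V (Sl S k))) c) := by
    ext m
    rw [coeff_map, coeff_map, coeff_map, ← pullK_comp, Mor.assoc, Mor.fst_lift]
    rfl
  rw [mul_assoc, ← map_insL, e2, ← map_mul, coeff_map, e1, fstar_comp p1 p2 (hS.prod hS).proj,
    fstar_proj p1 p2, fstar_of_inv p1 p2 Mor.assoc'_assoc Mor.assoc_assoc']

section comp

variable {L₁ M₁ L₂ M₂ : K0 S} {v₁ v₂ n₁ n₂ o₁ o₂ : ℕ}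
  {T₁ : Tower S L₁ M₁ v₁ n₁ o₁} {T₂ : Tower S L₂ M₂ v₂ n₂ o₂}
  {ι : Type} [Fintype ι] [Nonempty ι] {d : ι → ℤ} {O : Obs ι d} {E : K0 (O.Q.prod S)}

/-- the component of the fixed locus -/
def fcomp (F : FixData T₁ T₂ O E) : O.Comp where
  X := Fx T₁ T₂
  e := v₁ + 2 * n₁ + (v₂ + 2 * n₂)
  var := Fx_var T₁ T₂
  w := F.w
  j := F.j
  jt := F.jt
  fix := F.fix
  inj := F.inj
  unr := F.unr
  tan := F.tan
  b0 := bZ T₁ T₂
  bp := bP T₁ T₂
  bm := bM T₁ T₂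
  hb := F.hb
  Ob := F.Ob
  rkOb := F.rkOb
  u := F.u
  uhom := F.uhom
  uinj := F.uinj
  uzero := F.uzero

theorem rk_Ob (F : FixData T₁ T₂ O E) : F.Ob.rk = o₁ + n₁ + (o₂ + n₂) := by
  have := congrArg (rk _) F.obcls
  rw [rk_cls, map_add, rk_pullK, rk_pullK, Tower.obv, Tower.obv, isCls_rk (T₁.ob n₁ le_rfl),
    isCls_rk (T₂.ob n₂ le_rfl)] at this
  exact_mod_cast this

theorem core_eq (F : FixData T₁ T₂ O E) :
    C (cc F.Ob.rk F.Ob.cls) * X ^ F.Ob.rk * cT (bP T₁ T₂) * rescale (-1) (cT (bM T₁ T₂)) =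
      core T₁ T₂ := by
  rw [F.obcls, rk_Ob F, cc_top_add (isCls_pull (a := T₁.obv n₁) (T₁.ob n₁ le_rfl) _)
    (isCls_pull (a := T₂.obv n₂) (T₂.ob n₂ le_rfl) _), ← cc_pull, ← cc_pull]
  rfl

theorem vd_eq (F : FixData T₁ T₂ O E) :
    ((v₁ + 2 * n₁ + (v₂ + 2 * n₂) : ℕ) : ℤ) - F.Ob.rk - rk _ (bP T₁ T₂) - rk _ (bM T₁ T₂) =
      Fintype.card ι - 1 - O.C.rk := by
  have := congrArg (rk _) F.hb
  simp only [map_add, map_sub, map_mul, map_sum, rk_pullK, rk_line, rk_tK, rk_cls, map_one,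
    Finset.sum_const, Finset.card_univ, nsmul_eq_mul, mul_one, one_mul] at this
  rw [F.rkOb]
  omega

end comp

theorem glue (hLOC : LOC) (hS : S.IsVar 2) {L₁ L₂ : K0 S} {κ : Type} [Fintype κ]
    {M₁ M₂ : κ → K0 S} {v₁ v₂ n₁ n₂ o₁ o₂ : κ → ℕ}
    (T₁ : ∀ i, Tower S L₁ (M₁ i) (v₁ i) (n₁ i) (o₁ i))
    (T₂ : ∀ i, Tower S L₂ (M₂ i) (v₂ i) (n₂ i) (o₂ i))
    {ι : Type} [Fintype ι] [Nonempty ι] {d : ι → ℤ} (O : Obs ι d) (E : K0 (O.Q.prod S))
    (F : ∀ i, FixData (T₁ i) (T₂ i) O E)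
    (cov : ∀ z : O.Q.Pt, (∃ w, ∀ a, d a ≠ w → z.1 (O.inc.φ (Amb.x d a)) = 0) →
      ∃ i x, O.Q.Orb ((F i).j.onPt x) z)
    (dis : ∀ i i' x x', O.Q.Orb ((F i).j.onPt x) ((F i').j.onPt x') → i = i') (k : ℕ)
    (hk : (k + 2 : ℤ) < Fintype.card ι - 1 - O.C.rk) (w : Fin k → K0 S)
    (hw : ∀ i, rk S (w i) = 0) : ∑ i, Gam (T₁ i) (T₂ i) k w ∈ Fd (S.prod S) 2 := by
  have h := hLOC ι d O κ (fun i => fcomp (F i)) cov dis (Sl S k) (S.prod S) (2 * k + (2 + 2)) (2 + 2)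
    ((isVar_pow hS k).prod (hS.prod hS)) (hS.prod hS) (Mor.snd _ _) (ins k E w) (3 * k + 4)
    (fun i => insL k (E1 (T₁ i) (T₂ i)) (E2 (T₁ i) (T₂ i)) w)
    (fun i => lead_ins k (F i).j E _ _ (F i).Ecl
      (by rw [E2, rk_pullK, (T₂ i).rkE _ le_rfl]) w hw)
    (Fintype.card ι - 1 - O.C.rk) 2 (fun i => vd_eq (F i)) (by push_cast; omega) (by omega)
  convert h using 2 with i
  rw [Gam, fstar_Wk (Fx_var _ _) hS, ← core_eq (F i)]
  rfl

end Vale.Agent.P297Z.Gl
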