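import Vale.Agent.P297Z.K.PK
import Vale.Agent.P297Z.K.AS
import Vale.Agent.P297Z.Ch.Split
import Vale.Agent.P297Z.Top.Var
import Vale.Agent.P297Z.Top.Lead

/-!
# P297: the leading part of the second Chern class
-/

noncomputable section

namespace Vale.Agent.P297Z.Gl

open PowerSeries

variable {W V : Spc}

theorem mem_FF_one {w : K0 V} (h : rk V w = 0) : w ∈ FF V 1 := by
  have := neg_mem (cc_mem_FF 1 w)
  rwa [cc_one, h, Int.cast_zero, zero_sub, neg_neg] at this

theorem cc_two_add (a b : K0 V) : cc 2 (a + b) = cc 2 a + cc 1 a * cc 1 b + cc 2 b := by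
  have := congrArg (coeff 2) (cT_add a b)
  rw [coeff_mul, Finset.Nat.antidiagonal_succ, Finset.sum_cons, Finset.sum_map,
    Finset.Nat.antidiagonal_succ, Finset.sum_cons, Finset.sum_map] at this
  simp only [cT, coeff_mk, Finset.Nat.antidiagonal_zero, Finset.sum_singleton,
    Function.Embedding.coe_prodMap, Function.Embedding.coeFn_mk, Prod.map_fst, Prod.map_snd,
    Function.Embedding.refl_apply, cc_zero] at this
  rw [this]
  ring

theorem cc_two_of_rk_one {a : K0 V} (h : rk V a = 1) : cc 2 a = lam 2 a := by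
  have h0 : Ring.choose (1 : ℤ) 2 = 0 := by
    have := Ring.choose_natCast (R := ℤ) 1 2
    simpa using this
  rw [cc, h]
  simp [Finset.sum_range_succ, h0]

theorem coeff_kappa (a b : K0 V) (n : ℕ) : coeff n (kappa a b) =
    if n = 1 then cc 1 a else if n = 2 then cc 1 a * cc 1 b + (cc 2 a + cc 2 b) else 0 := by
  have e : kappa a b = C (cc 1 a) * X ^ 1 + C (cc 1 a * cc 1 b + (cc 2 a + cc 2 b)) * X ^ 2 := by
    simp only [kappa, map_add, map_mul]
    ring
  rw [e, map_add, coeff_C_mul, coeff_C_mul, coeff_X_pow, coeff_X_pow]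
  split_ifs <;> first | omega | simp

theorem cc_two_tK (b : K0 V) (hb : rk V b = 1) :
    cc 2 (tK V 1 * pullK (Mor.fst V ptT) b) = tK V 1 ^ 2 * pullK (Mor.fst V ptT) (cc 2 b) := by
  have r1 : rk _ (pullK (Mor.fst V ptT) b) = 1 := by rw [rk_pullK, hb]
  have r2 : rk _ (tK V 1 * pullK (Mor.fst V ptT) b) = 1 := by rw [map_mul, rk_tK, r1, one_mul]
  rw [cc_two_of_rk_one r2, cc_pull, cc_two_of_rk_one r1]
  have := lam_line_mul (X := V.prod ptT) (Sum.elim 0 fun _ => 1) 2 (pullK (Mor.fst V ptT) b)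
  rw [tK_eq]
  exact this

theorem cc_one_tK (b : K0 V) (hb : rk V b = 1) :
    cc 1 (tK V 1 * pullK (Mor.fst V ptT) b) =
      1 - tK V 1 + tK V 1 * pullK (Mor.fst V ptT) (cc 1 b) := by
  have r1 : rk _ (pullK (Mor.fst V ptT) b) = 1 := by rw [rk_pullK, hb]
  have r2 : rk _ (tK V 1 * pullK (Mor.fst V ptT) b) = 1 := by rw [map_mul, rk_tK, r1, one_mul]
  rw [cc_one, r2, cc_pull, cc_one, r1, Int.cast_one]
  ring

theorem kappa_aux {A : Type*} [CommRing A] (t a1 a2 b1 b2 : A) :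
    a2 + a1 * (1 - t + t * b1) + t ^ 2 * b2 -
      ((1 - t) ^ (2 - 0) * 0 + (1 - t) ^ (2 - 1) * a1 + (1 - t) ^ (2 - 2) * (a1 * b1 + (a2 + b2))) =
    -((1 - t) ^ 1 * (a1 * b1) + ((1 - t) ^ 1 * b2 + t * (1 - t) ^ 1 * b2)) := by
  norm_num
  ring

theorem lead_kappa (a b : K0 V) (hb : rk V b = 1) :
    Lead V 2 (cc 2 (pullK (Mor.fst V ptT) a + tK V 1 * pullK (Mor.fst V ptT) b)) (kappa a b) := by
  have c0 : coeff 0 (kappa a b) = 0 := by rw [coeff_kappa, if_neg (by omega), if_neg (by omega)]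
  have c1 : coeff 1 (kappa a b) = cc 1 a := by rw [coeff_kappa, if_pos rfl]
  have c2 : coeff 2 (kappa a b) = cc 1 a * cc 1 b + (cc 2 a + cc 2 b) := by
    rw [coeff_kappa, if_neg (by omega), if_pos rfl]
  have c3 : ∀ n, 2 < n → coeff n (kappa a b) = 0 := fun n hn => by
    rw [coeff_kappa, if_neg (by omega), if_neg (by omega)]
  have m1 := FF_mul (cc_mem_FF 1 a) (cc_mem_FF 1 b)
  refine ⟨fun n => ?_, c3, ?_⟩
  · match n with
    | 0 => rw [c0]; exact zero_mem _
    | 1 => rw [c1]; exact cc_mem_FF 1 a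
    | 2 => rw [c2]; exact add_mem m1 (add_mem (cc_mem_FF 2 a) (cc_mem_FF 2 b))
    | n + 3 => rw [c3 _ (by omega)]; exact zero_mem _
  · have a1 := Deg_gen' (m := 3) (a := 1) (by omega) m1
    have a2 := Deg_gen' (m := 3) (a := 1) (by omega) (cc_mem_FF 2 b)
    have a3 := Deg_gen (m := 3) (a := 1) 1 (by omega) (cc_mem_FF 2 b)
    rw [cc_two_add, cc_one_tK b hb, cc_two_tK b hb, ← cc_pull, ← cc_pull, Finset.sum_range_succ,
      Finset.sum_range_succ, Finset.sum_range_one, c0, c1, c2, map_zero, map_add, map_add, map_mul,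
      kappa_aux]
    rw [map_mul] at a1
    exact neg_mem (add_mem a1 (add_mem a2 a3))

theorem map_kappa (f : Mor W V) (a b : K0 V) :
    map (pullK f) (kappa a b) = kappa (pullK f a) (pullK f b) := by
  simp only [kappa, map_add, map_mul, map_pow, map_C, map_X, map_one, cc_pull]

end Vale.Agent.P297Z.Gl
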